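import Vale.Agent.P141.H38.LagE
import Vale.Agent.P141.H585.PairRXS
import Vale.Agent.P141.H8.BirthFD
import Vale.Agent.P141.H816.FDatM
import Vale.Agent.P141.H258.NbPack
import Vale.Agent.P141.H277.PhiS

/-!
# P141, line (A), flow part: the energies of the stack at hub `x1`, class data

The numbers `H0`, `Q0`, `M0` of `H585.PairRX.RX_BC` summed over `x0`, from `H677.Sk.NumX` and the
data `FDs`, for the family `w • C`.

* `NumX_smul` : scaling of the numbers; `AfS`, `gpack_nb2`, `hS_FDs`, `hSQ_FDs` : the affected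
  rows of the shifted family; `massS` : their masses; `hE123` : the three numbers of every lag.
-/

set_option linter.unusedSectionVars false

namespace Vale.Agent.P141.H565.LF

open Finset Matrix
open Vale.Agent.P141.PL (Pt iv hs ix mem_iv ix_ix card_iv cb mem_cb cx)
open Vale.Agent.P141.PL.H804 (iv_sum)
open Vale.Agent.P141.PL.H315 (Tri)
open Vale.Agent.P141.H48 (BSl sst)
open Vale.Agent.P141.H210 (two mem_two ix_add)
open Vale.Agent.P141.H677 Vale.Agent.P141.H677.Sk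
open Vale.Agent.P141.H43 (nsq nsq_nonneg)
open Vale.Agent.P141.H460 (GPack QPack)
open Vale.Agent.P141.H258 (nbQ)
open Vale.Agent.P141.H38.Q (AfC bP)
open Vale.Agent.P141.H38.LagE

noncomputable section

open scoped Classical

variable {ι : Type} [Fintype ι] [DecidableEq ι]

/-! ### Scaling -/

theorem nsq_smul (w : ℝ) (v : ι → ℝ) : nsq (w • v) = w ^ 2 * nsq v := by
  unfold H43.nsq
  rw [smul_dotProduct, dotProduct_smul, smul_eq_mul, smul_eq_mul]
  ring

theorem NumX_smul {K : ℕ} {M : Pt} {R : Slt ι} {C : FamV ι} {h : Pt} {X : ℝ}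
    (H : NumX K M R C h X) (w : ℝ) :
    NumX K M R (fun x0 k z x => w • C x0 k z x) h (w ^ 2 * X) := by
  have nw : 0 ≤ w ^ 2 := sq_nonneg w
  obtain ⟨E, h0, h1, h2⟩ := H.en
  refine ⟨⟨fun x0 => w ^ 2 * E x0, fun x0 => mul_nonneg nw (h0 x0), ?_, ?_⟩, ?_, ?_, ?_, ?_, ?_,
    ?_⟩
  · simp only [← mul_sum]
    exact mul_le_mul_of_nonneg_left h1 nw
  · intro t ht x0 hx0 k hk j hj hjk
    simp only [mulVec_smul, nsq_smul, ← mul_sum]
    exact mul_le_mul_of_nonneg_left (h2 t ht x0 hx0 k hk j hj hjk) nw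
  · simp only [mulVec_smul, nsq_smul, ← mul_sum]
    exact mul_le_mul_of_nonneg_left H.q nw
  · simp only [mulVec_smul, nsq_smul, ← mul_sum]
    exact mul_le_mul_of_nonneg_left H.q2 nw
  · intro S Q P hP hQ hS
    have e : ∀ (p : Prop) (a : ℝ), (if p then w ^ 2 * a else 0) = w ^ 2 * (if p then a else 0) := by
      intro p a
      split_ifs
      · rfl
      · rw [mul_zero]
    simp only [mulVec_smul, nsq_smul, e, ← mul_sum]
    calc _ ≤ w ^ 2 * ((1 + P) * X) := mul_le_mul_of_nonneg_left (H.af S Q P hP hQ hS) nw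
      _ = (1 + P) * (w ^ 2 * X) := by ring
  · intro l
    simp only [mulVec_smul, nsq_smul, ← mul_sum]
    exact mul_le_mul_of_nonneg_left (H.qL l) nw
  · intro l
    simp only [mulVec_smul, nsq_smul, ← mul_sum]
    exact mul_le_mul_of_nonneg_left (H.q2L l) nw
  · intro l S Q P hP hQ hS
    have e : ∀ (p : Prop) (a : ℝ), (if p then w ^ 2 * a else 0) = w ^ 2 * (if p then a else 0) := by
      intro p a
      split_ifs
      · rfl
      · rw [mul_zero]
    simp only [mulVec_smul, nsq_smul, e, ← mul_sum]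
    calc _ ≤ w ^ 2 * ((1 + P) * X) := mul_le_mul_of_nonneg_left (H.afL l S Q P hP hQ hS) nw
      _ = (1 + P) * (w ^ 2 * X) := by ring

/-! ### The affected rows of the shifted family -/

variable {q : H401.Num} {n : ℕ} {ez : ℝ}
  {F1 F2 F3 : ℕ → Pt → ℝ} {K : ℕ} {x : Pt} {s r : ℝ} {U : Tri} {g : ℤ → ℤ → ℝ}
  {u v : ℤ → ℤ → ι → ℝ} {A : FamA} {b C : FamV ι}
  {Q1 Q2 Q3 : ℕ → Pt → Prop} {v' : ℤ → ℤ → ι → ℝ}

/-- the shifted row cell of the point meets an affected square -/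
def AfS (q : H401.Num) (U : Tri) (K : ℕ) (Q2 : ℕ → Pt → Prop) (h : Pt) (k : ℕ) (y : Pt) : Prop :=
  ∃ x' : ℤ, ix k (x' - h.1) = ix k (y.2.1 - h.1) ∧
    H8B.Q2F q U K Q2 k (ix k y.1, ix k x', ix k y.2.2)

theorem hSQ_FDs (q : H401.Num) (U : Tri) (K : ℕ) (Q2 : ℕ → Pt → Prop) (h : Pt) (k : ℕ) (y : Pt)
    (hy : AfS q U K Q2 h k y) : nbQ 1 (H8B.Q2F q U K Q2) k (cx k y) := by
  obtain ⟨x', h1, h2⟩ := hy
  have a1 := ix_add k (x' - h.1) h.1
  have a2 := ix_add k (y.2.1 - h.1) h.1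
  rw [sub_add_cancel] at a1 a2
  rw [h1] at a1
  refine ⟨ix k x' - ix k y.2.1, 0, ?_, by simp, ?_⟩
  · rw [abs_le]
    push_cast
    omega
  · have e : ((cx k y).1, (cx k y).2.1 + (ix k x' - ix k y.2.1), (cx k y).2.2 + 0) =
        (ix k y.1, ix k x', ix k y.2.2) := by
      unfold PL.cx
      ext1
      · rfl
      · ext1
        · change ix k y.2.1 + (ix k x' - ix k y.2.1) = ix k x'
          ring
        · change ix k y.2.2 + 0 = ix k y.2.2
          ring
    rw [e]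
    exact h2

/-- packing of the near squares -/
theorem qpack_nb2 (h : FDs q n ez F1 F2 F3 K x s r U g u v A b C Q1 Q2 Q3 v') :
    QPack n (nbQ 1 (H8B.Q2F q U K Q2)) (81 * (q.cP + 2)) := by
  have h1 := (H8B.qpack_QD (H576.Dd_sst q.Lm U.2.1 K) h.B2).nb 1
  have e : ((2 * ((1 : ℕ) : ℝ) + 1) ^ 4 * (q.cP + 2)) = 81 * (q.cP + 2) := by
    push_cast
    norm_num
  rw [e] at h1
  exact h1

theorem gpack_nb2 (h : FDs q n ez F1 F2 F3 K x s r U g u v A b C Q1 Q2 Q3 v') (hKn : K ≤ n) :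
    GPack (nbQ 1 (H8B.Q2F q U K Q2)) K (81 * (q.cP + 2)) :=
  fun _ hk m => H460.pack2 (qpack_nb2 h) (hk.trans hKn) m

/-- agreement of `C` off its affected squares -/
theorem agC (h : FDs q n ez F1 F2 F3 K x s r U g u v A b C Q1 Q2 Q3 v') (hKn : K ≤ n) (x0 : ℤ)
    {k : ℕ} (hk : k < K) {z w : ℤ} (hq : ¬ H8B.Q2F q U K Q2 k (ix k x0, ix k w, ix k z)) :
    C x0 (k + 1) z w = C x0 k z w := by
  rw [h.C_eq, h.C_eq]
  have e := H576.agree_kD (H576.Dd_sst q.Lm U.2.1 K) h.B2 (lt_of_lt_of_le hk hKn) (x0 := x0)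
    (r := ix k w) (s := ix k z) hq (mem_iv.2 rfl) (mem_iv.2 rfl)
  rw [H576.kD_sst] at e
  rw [e]

theorem C_zero (h : FDs q n ez F1 F2 F3 K x s r U g u v A b C Q1 Q2 Q3 v') (x0 z w : ℤ) :
    C x0 0 z w = 0 := by
  rw [h.C_eq]
  unfold H677.kF
  rw [if_pos (Or.inl rfl), zero_smul]

/-- **A changed row of the shifted family lies over an affected square.** -/
theorem hS_FDs (h : FDs q n ez F1 F2 F3 K x s r U g u v A b C Q1 Q2 Q3 v') (hKn : K ≤ n)
    (M sh : Pt) (w : ℝ) (x0 : ℤ) {k : ℕ} (hk : k < K) (X Z : ℤ)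
    (hA : AfC k (cl K M sh (fun k z x => w • C x0 k z x) k)
      (cl K M sh (fun k z x => w • C x0 k z x) (k + 1)) (ix k X) Z) :
    AfS q U K Q2 sh k (x0, X + sh.1, Z + sh.2.2) := by
  unfold AfC at hA
  push Not at hA
  obtain ⟨x', hx', hne⟩ := hA
  rw [mem_iv] at hx'
  refine ⟨x' + sh.1, ?_, ?_⟩
  · change ix k (x' + sh.1 - sh.1) = ix k (X + sh.1 - sh.1)
    rw [add_sub_cancel_right, add_sub_cancel_right, hx']
  · by_contra hq
    apply hne
    unfold H38.LagE.cl H747.shC H747.sft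
    have e := agC h hKn x0 hk (z := Z + sh.2.2) (w := x' + sh.1) hq
    beta_reduce
    rw [e]

/-- mass of `C` per cube, time `k + 1` -/
theorem massC {P : ℝ} (h : FDs q n ez F1 F2 F3 K x s r U g u v A b C Q1 Q2 Q3 v')
    (hc : H305.Cls K x s r P U g u v) (hez : 0 ≤ ez) (hL : 0 ≤ q.Lm) (hs : 0 ≤ s) (hKn : K ≤ n)
    {k : ℕ} (hk : k < K) (i : ℤ) {z' : ℤ} (hz' : z' ∈ iv (K - k) (ix K x.2.2)) {w' : ℤ}
    (hw' : w' ∈ iv (K - k) (ix K x.1)) :
    ∑ x0 ∈ iv k i, ∑ w ∈ iv k w', ∑ z ∈ iv k z', nsq (C x0 (k + 1) z w) ≤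
      4 * ez * q.Lm * s * 8 ^ k := by
  refine le_trans (sum_le_sum fun x0 _ => ?_)
    (H816.massC_one h.B2 hez hL hs hKn hc k hk i z' hz' w' hw')
  rw [sum_comm]
  refine sum_le_sum fun z _ => sum_le_sum fun w _ => ?_
  rw [h.C_eq]
  change nsq (kF q.Lm U.2.1 K F2 (k + 1) (x0, w, z) • v' w z) ≤
    (kF q.Lm U.2.1 K F2 (k + 1) (x0, w, z) • v w z) ⬝ᵥ
      (kF q.Lm U.2.1 K F2 (k + 1) (x0, w, z) • v w z)
  rcases h.v_or w z with e | e
  · rw [e]
    exact le_rfl
  · rw [e, smul_zero]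
    unfold H43.nsq
    rw [zero_dotProduct]
    exact Finset.sum_nonneg fun _ _ => mul_self_nonneg _

/-- **The masses of the affected rows.** -/
theorem massS {P : ℝ} (h : FDs q n ez F1 F2 F3 K x s r U g u v A b C Q1 Q2 Q3 v')
    (hc : H305.Cls K x s r P U g u v) (hez : 0 ≤ ez) (hL : 0 ≤ q.Lm) (hs : 0 ≤ s) (hKn : K ≤ n)
    (sh : Pt) (t : ℤ) :
    ∑ x0 ∈ iv K t, ∑ k ∈ range K, ∑ w ∈ iv K (cx K x).1, ∑ z ∈ iv K (cx K x).2.2,
        (if AfS q U K Q2 sh k (x0, w, z) then nsq (C x0 (k + 1) z w) else 0) ≤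
      324 * (q.cP + 2) * (ez * q.Lm * s) * 8 ^ K := by
  rw [sum_comm]
  set B : ℝ := 4 * ez * q.Lm * s with hB
  have nB : 0 ≤ B := by positivity
  set Qn := nbQ 1 (H8B.Q2F q U K Q2) with hQn
  have h1 : ∀ k ∈ range K, ∑ x0 ∈ iv K t, ∑ w ∈ iv K (cx K x).1, ∑ z ∈ iv K (cx K x).2.2,
        (if AfS q U K Q2 sh k (x0, w, z) then nsq (C x0 (k + 1) z w) else 0) ≤
      B * ∑ x0 ∈ iv K t, ∑ r' ∈ iv (K - k) (cx K x).1, ∑ s' ∈ iv (K - k) (cx K x).2.2,
        (if Qn k (ix k x0, r', s') then (4 : ℝ) ^ k else 0) := by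
    intro k hk
    rw [mem_range] at hk
    rw [← iv_sum hk.le t, ← iv_sum hk.le t, mul_sum]
    refine sum_le_sum fun i _ => ?_
    have e1 : ∀ x0 ∈ iv k i, ∑ w ∈ iv K (cx K x).1, ∑ z ∈ iv K (cx K x).2.2,
        (if AfS q U K Q2 sh k (x0, w, z) then nsq (C x0 (k + 1) z w) else 0) ≤
        ∑ r' ∈ iv (K - k) (cx K x).1, ∑ s' ∈ iv (K - k) (cx K x).2.2,
          (if Qn k (i, r', s') then ∑ w ∈ iv k r', ∑ z ∈ iv k s', nsq (C x0 (k + 1) z w)
            else 0) := by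
      intro x0 hx0
      rw [mem_iv] at hx0
      rw [← iv_sum hk.le (cx K x).1]
      refine sum_le_sum fun r' _ => ?_
      have e2 : ∀ w ∈ iv k r', ∑ z ∈ iv K (cx K x).2.2,
          (if AfS q U K Q2 sh k (x0, w, z) then nsq (C x0 (k + 1) z w) else 0) ≤
          ∑ s' ∈ iv (K - k) (cx K x).2.2, (if Qn k (i, r', s') then
            ∑ z ∈ iv k s', nsq (C x0 (k + 1) z w) else 0) := by
        intro w hw
        rw [mem_iv] at hw
        rw [← iv_sum hk.le (cx K x).2.2]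
        refine sum_le_sum fun s' _ => ?_
        by_cases hq : Qn k (i, r', s')
        · rw [if_pos hq]
          refine sum_le_sum fun z _ => ?_
          split_ifs
          · exact le_rfl
          · exact nsq_nonneg _
        · rw [if_neg hq]
          refine le_of_eq (sum_eq_zero fun z hz => ?_)
          rw [mem_iv] at hz
          rw [if_neg]
          intro hA
          apply hq
          have := hSQ_FDs q U K Q2 sh k (x0, w, z) hA
          unfold PL.cx at this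
          beta_reduce at this
          change Qn k (ix k x0, ix k w, ix k z) at this
          rwa [hx0, hw, hz] at this
      refine (sum_le_sum e2).trans (le_of_eq ?_)
      rw [sum_comm]
      refine sum_congr rfl fun s' _ => ?_
      split_ifs
      · rfl
      · rw [sum_const_zero]
    refine (sum_le_sum e1).trans ?_
    rw [sum_comm]
    have e3 : ∀ x0 ∈ iv k i, ∑ r' ∈ iv (K - k) (cx K x).1, ∑ s' ∈ iv (K - k) (cx K x).2.2,
        (if Qn k (ix k x0, r', s') then (4 : ℝ) ^ k else 0) =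
        ∑ r' ∈ iv (K - k) (cx K x).1, ∑ s' ∈ iv (K - k) (cx K x).2.2,
        (if Qn k (i, r', s') then (4 : ℝ) ^ k else 0) := by
      intro x0 hx0
      rw [mem_iv] at hx0
      rw [hx0]
    rw [sum_congr rfl e3, sum_const, card_iv, nsmul_eq_mul, mul_sum, mul_sum]
    refine sum_le_sum fun r' hr' => ?_
    rw [sum_comm, mul_sum, mul_sum]
    refine sum_le_sum fun s' hs' => ?_
    by_cases hq : Qn k (i, r', s')
    · simp only [if_pos hq]
      refine (massC h hc hez hL hs hKn hk i hs' hr').trans (le_of_eq ?_)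
      have e8 : (8 : ℝ) ^ k = 2 ^ k * 4 ^ k := by
        rw [← mul_pow]
        norm_num
      rw [e8]
      push_cast
      ring
    · simp only [if_neg hq]
      rw [sum_const_zero]
      simp
  refine (sum_le_sum h1).trans ?_
  rw [← mul_sum, sum_comm]
  have h2 : ∑ x0 ∈ iv K t, ∑ k ∈ range K, ∑ r' ∈ iv (K - k) (cx K x).1,
      ∑ s' ∈ iv (K - k) (cx K x).2.2, (if Qn k (ix k x0, r', s') then (4 : ℝ) ^ k else 0) ≤
      2 ^ K * (81 * (q.cP + 2) * 4 ^ K) := by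
    have h3 : ∀ x0 ∈ iv K t, ∑ k ∈ range K, ∑ r' ∈ iv (K - k) (cx K x).1,
      ∑ s' ∈ iv (K - k) (cx K x).2.2, (if Qn k (ix k x0, r', s') then (4 : ℝ) ^ k else 0) ≤
        81 * (q.cP + 2) * 4 ^ K := by
      intro x0 _
      refine le_trans ?_ (qpack_nb2 h x0 K hKn (cx K x).1 (cx K x).2.2)
      refine sum_le_sum_of_subset_of_nonneg (range_subset_range.2 (Nat.le_succ K)) fun k _ _ =>
        sum_nonneg fun _ _ => sum_nonneg fun _ _ => ?_
      split_ifs
      · positivity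
      · exact le_rfl
    refine (sum_le_sum h3).trans (le_of_eq ?_)
    rw [sum_const, card_iv, nsmul_eq_mul]
    push_cast
    rfl
  have e8 : (8 : ℝ) ^ K = 2 ^ K * 4 ^ K := by
    rw [← mul_pow]
    norm_num
  calc B * _ ≤ B * (2 ^ K * (81 * (q.cP + 2) * 4 ^ K)) := mul_le_mul_of_nonneg_left h2 nB
    _ = 324 * (q.cP + 2) * (ez * q.Lm * s) * 8 ^ K := by rw [e8, hB]; ring

end

end Vale.Agent.P141.H565.LF
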