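import Vale.Agent.P141.H43.SeamPM
import Vale.Agent.P141.H677.FDb
import Vale.Agent.P141.H38.StkQ
import Vale.Agent.P141.H816.FDatM
import Vale.Agent.P141.H747.CapG
import Vale.Agent.P141.H585.PairRX
import Vale.Agent.P141.H297.BirthC

/-!
# P141, line (A), flow part: the partner `b` of the hub `x1` at class data, shifted grids

* `born_sum` : the affected rows of a shifted family, summed over `x0` and the scales, from the
  masses per cube and the packing of the affected squares;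
* `bP_FDs`, `bP_FDs'` : the same for `shB` of the cut families, also with labels `(0 ; b)`;
* `cap_sq`, `cap_sq1`, `capB_FDs` : the operator cap of the Gram matrices of the rows.
-/

set_option linter.unusedSectionVars false

namespace Vale.Agent.P141.H565.MV

open Finset Matrix
open Vale.Agent.P141.PL (Pt iv hs ix mem_iv ix_ix card_iv cb mem_cb cx)
open Vale.Agent.P141.PL.H804 (iv_sum)
open Vale.Agent.P141.H210 (two mem_two ix_add ix_mem_two sum_tr_le)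
open Vale.Agent.P141.H747 (sft shB)
open Vale.Agent.P141.H38.Q (AfC bP)

noncomputable section

open scoped Classical

section gen

variable {κ : Type} [Fintype κ] [DecidableEq κ]

/-- bound of one point: the affected rows of the shifted family over the affected squares -/
def Gd (N : ℕ) (R : ℤ) (Qd : ℕ → ℤ → ℤ → ℤ → Prop) (h : ℤ → ℤ → ℝ) (k : ℕ) (i : ℤ)
    (X Y : ℤ) : ℝ :=
  ∑ d ∈ Icc (-1 : ℤ) 1,
    if ix k X + d ∈ iv (N - k) R ∧ Qd k i (ix k X + d) (ix k Y) then h X Y else 0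

theorem Gd_nonneg {N : ℕ} {R : ℤ} {Qd : ℕ → ℤ → ℤ → ℤ → Prop} {h : ℤ → ℤ → ℝ}
    (hh : ∀ X Y, 0 ≤ h X Y) (k : ℕ) (i X Y : ℤ) : 0 ≤ Gd N R Qd h k i X Y := by
  unfold Gd
  refine sum_nonneg fun d _ => ?_
  split_ifs
  · exact hh _ _
  · exact le_rfl

theorem ix_root {N k : ℕ} (hk : k ≤ N) {x R : ℤ} (h : ix N x = R) : ix k x ∈ iv (N - k) R := by
  rw [mem_iv, ix_ix, Nat.add_sub_cancel' hk]
  exact h

/-- one point -/
theorem bP_pt {N k : ℕ} (hk : k < N) {R S a b : ℤ} {f f' : ℤ → ℤ → κ → ℝ}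
    {Qd : ℕ → ℤ → ℤ → ℤ → Prop} {i : ℤ}
    (agree : ∀ n' m', ¬ Qd k i n' m' → ∀ z ∈ iv k n', ∀ y ∈ iv k m', f' z y = f z y)
    (x y : ℤ) :
    bP k (sft N R S a b f) (sft N R S a b f') x y ⬝ᵥ bP k (sft N R S a b f) (sft N R S a b f') x y ≤
      if x + a ∈ iv N R then (if y + b ∈ iv N S then
        Gd N R Qd (fun X Y => f' X Y ⬝ᵥ f' X Y) k i (x + a) (y + b) else 0) else 0 := by
  have hn : ∀ X Y, 0 ≤ f' X Y ⬝ᵥ f' X Y := fun X Y => Finset.sum_nonneg fun i _ => mul_self_nonneg _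
  have h0 : (0 : ℝ) ≤ if x + a ∈ iv N R then (if y + b ∈ iv N S then
        Gd N R Qd (fun X Y => f' X Y ⬝ᵥ f' X Y) k i (x + a) (y + b) else 0) else 0 := by
    split_ifs
    · exact Gd_nonneg hn _ _ _ _
    · exact le_rfl
    · exact le_rfl
  unfold bP
  by_cases hA : AfC k (sft N R S a b f) (sft N R S a b f') (ix k x) y
  swap
  · rw [if_neg hA, dotProduct_zero]
    exact h0
  rw [if_pos hA]
  by_cases hc : ix N (x + a) = R ∧ ix N (y + b) = S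
  swap
  · have e : sft N R S a b f' x y = 0 := by
      unfold sft
      rw [if_neg hc]
    rw [e, dotProduct_zero]
    exact h0
  have e : sft N R S a b f' x y = f' (x + a) (y + b) := by
    unfold sft
    rw [if_pos hc]
  rw [e, if_pos (mem_iv.2 hc.1), if_pos (mem_iv.2 hc.2)]
  unfold AfC at hA
  push Not at hA
  obtain ⟨x', hx', hne⟩ := hA
  rw [mem_iv] at hx'
  have hc' : ix N (x' + a) = R := by
    by_contra h
    apply hne
    unfold sft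
    rw [if_neg (fun h' => h h'.1), if_neg (fun h' => h h'.1)]
  have hne' : f' (x' + a) (y + b) ≠ f (x' + a) (y + b) := by
    unfold sft at hne
    rwa [if_pos ⟨hc', hc.2⟩, if_pos ⟨hc', hc.2⟩] at hne
  have hQ : Qd k i (ix k (x' + a)) (ix k (y + b)) := by
    by_contra h
    exact hne' (agree _ _ h _ (mem_iv.2 rfl) _ (mem_iv.2 rfl))
  have h1 := ix_add k x' a
  have h2 := ix_add k x a
  rw [hx'] at h1
  set d := ix k (x' + a) - ix k (x + a) with hd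
  have hd' : ix k (x + a) + d = ix k (x' + a) := by rw [hd]; ring
  have hdm : d ∈ Icc (-1 : ℤ) 1 := by
    rw [mem_Icc]
    omega
  unfold Gd
  have h3 := single_le_sum (s := Icc (-1 : ℤ) 1) (f := fun d =>
    if ix k (x + a) + d ∈ iv (N - k) R ∧ Qd k i (ix k (x + a) + d) (ix k (y + b))
      then f' (x + a) (y + b) ⬝ᵥ f' (x + a) (y + b) else 0)
    (fun d _ => by
      split_ifs
      · exact hn _ _
      · exact le_rfl) hdm
  beta_reduce at h3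
  rw [hd', if_pos ⟨ix_root hk.le hc', hQ⟩] at h3
  exact h3

/-- all points of one `x0`, one scale -/
theorem bP_x {N k : ℕ} (hk : k < N) {R S a b : ℤ} {f f' : ℤ → ℤ → κ → ℝ}
    {Qd : ℕ → ℤ → ℤ → ℤ → Prop} {i : ℤ}
    (agree : ∀ n' m', ¬ Qd k i n' m' → ∀ z ∈ iv k n', ∀ y ∈ iv k m', f' z y = f z y)
    (X0 Y0 : ℤ) :
    ∑ x ∈ iv N X0, ∑ y ∈ iv N Y0, bP k (sft N R S a b f) (sft N R S a b f') x y ⬝ᵥ
        bP k (sft N R S a b f) (sft N R S a b f') x y ≤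
      ∑ X ∈ iv N R, ∑ Y ∈ iv N S, Gd N R Qd (fun X Y => f' X Y ⬝ᵥ f' X Y) k i X Y := by
  have hn : ∀ X Y, 0 ≤ f' X Y ⬝ᵥ f' X Y := fun X Y => Finset.sum_nonneg fun i _ => mul_self_nonneg _
  have h1 : ∀ x ∈ iv N X0, ∑ y ∈ iv N Y0, bP k (sft N R S a b f) (sft N R S a b f') x y ⬝ᵥ
        bP k (sft N R S a b f) (sft N R S a b f') x y ≤
      if x + a ∈ iv N R then (fun X => ∑ Y ∈ iv N S,
        Gd N R Qd (fun X Y => f' X Y ⬝ᵥ f' X Y) k i X Y) (x + a) else 0 := by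
    intro x _
    refine (sum_le_sum fun y _ => bP_pt hk agree x y).trans ?_
    by_cases hx : x + a ∈ iv N R
    · simp only [if_pos hx]
      exact sum_tr_le (iv N Y0) (iv N S) b fun Y => Gd_nonneg hn k i (x + a) Y
    · simp only [if_neg hx]
      rw [sum_const_zero]
  refine (sum_le_sum h1).trans ?_
  exact sum_tr_le (iv N X0) (iv N R) a fun X => sum_nonneg fun Y _ => Gd_nonneg hn k i X Y

/-- one scale, all `x0` of the root -/
theorem bP_k {N k : ℕ} (hk : k < N) {t R S a b : ℤ} {B : ℝ} (hB : 0 ≤ B)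
    {f f' : ℤ → ℤ → ℤ → κ → ℝ} {Qd : ℕ → ℤ → ℤ → ℤ → Prop}
    (agree : ∀ x0 n' m', ¬ Qd k (ix k x0) n' m' → ∀ z ∈ iv k n', ∀ y ∈ iv k m',
      f' x0 z y = f x0 z y)
    (mass : ∀ i, ∀ n' ∈ iv (N - k) R, ∀ m' ∈ iv (N - k) S, ∑ x0 ∈ iv k i, ∑ z ∈ iv k n',
      ∑ y ∈ iv k m', f' x0 z y ⬝ᵥ f' x0 z y ≤ B * 8 ^ k) (X0 Y0 : ℤ) :
    ∑ x0 ∈ iv N t, ∑ x ∈ iv N X0, ∑ y ∈ iv N Y0,
        bP k (sft N R S a b (f x0)) (sft N R S a b (f' x0)) x y ⬝ᵥ
        bP k (sft N R S a b (f x0)) (sft N R S a b (f' x0)) x y ≤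
      3 * B * ∑ x0 ∈ iv N t, ∑ n' ∈ iv (N - k) R, ∑ m' ∈ iv (N - k) S,
        (if Qd k (ix k x0) n' m' then (4 : ℝ) ^ k else 0) := by
  have hn : ∀ x0 X Y, 0 ≤ f' x0 X Y ⬝ᵥ f' x0 X Y :=
    fun x0 X Y => Finset.sum_nonneg fun i _ => mul_self_nonneg _
  have h1 : ∀ x0, ∑ x ∈ iv N X0, ∑ y ∈ iv N Y0,
        bP k (sft N R S a b (f x0)) (sft N R S a b (f' x0)) x y ⬝ᵥ
        bP k (sft N R S a b (f x0)) (sft N R S a b (f' x0)) x y ≤
      ∑ d ∈ Icc (-1 : ℤ) 1, ∑ n' ∈ iv (N - k) R, ∑ m' ∈ iv (N - k) S,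
        if n' + d ∈ iv (N - k) R ∧ Qd k (ix k x0) (n' + d) m' then
          ∑ z ∈ iv k n', ∑ y ∈ iv k m', f' x0 z y ⬝ᵥ f' x0 z y else 0 := by
    intro x0
    refine (bP_x hk (agree x0) X0 Y0).trans (le_of_eq ?_)
    unfold Gd
    rw [← iv_sum hk.le R]
    have e1 : ∀ n' ∈ iv (N - k) R, ∀ X ∈ iv k n', ∑ Y ∈ iv N S, ∑ d ∈ Icc (-1 : ℤ) 1,
        (if ix k X + d ∈ iv (N - k) R ∧ Qd k (ix k x0) (ix k X + d) (ix k Y)
          then f' x0 X Y ⬝ᵥ f' x0 X Y else 0) =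
        ∑ d ∈ Icc (-1 : ℤ) 1, ∑ m' ∈ iv (N - k) S, ∑ Y ∈ iv k m',
          (if n' + d ∈ iv (N - k) R ∧ Qd k (ix k x0) (n' + d) m'
            then f' x0 X Y ⬝ᵥ f' x0 X Y else 0) := by
      intro n' _ X hX
      rw [mem_iv] at hX
      rw [sum_comm]
      refine sum_congr rfl fun d _ => ?_
      rw [← iv_sum hk.le S]
      refine sum_congr rfl fun m' _ => sum_congr rfl fun Y hY => ?_
      rw [mem_iv] at hY
      rw [hX, hY]
    rw [sum_congr rfl fun n' hn' => sum_congr rfl fun X hX => e1 n' hn' X hX]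
    have e2 : ∀ n' ∈ iv (N - k) R, ∑ X ∈ iv k n', ∑ d ∈ Icc (-1 : ℤ) 1,
        ∑ m' ∈ iv (N - k) S, ∑ Y ∈ iv k m',
          (if n' + d ∈ iv (N - k) R ∧ Qd k (ix k x0) (n' + d) m'
            then f' x0 X Y ⬝ᵥ f' x0 X Y else 0) =
        ∑ d ∈ Icc (-1 : ℤ) 1, ∑ m' ∈ iv (N - k) S,
          (if n' + d ∈ iv (N - k) R ∧ Qd k (ix k x0) (n' + d) m' then
          ∑ z ∈ iv k n', ∑ y ∈ iv k m', f' x0 z y ⬝ᵥ f' x0 z y else 0) := by
      intro n' _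
      rw [sum_comm]
      refine sum_congr rfl fun d _ => ?_
      rw [sum_comm]
      refine sum_congr rfl fun m' _ => ?_
      split_ifs with hh
      · rfl
      · simp only [sum_const_zero]
    rw [sum_congr rfl e2, sum_comm]
  have h2 : ∑ x0 ∈ iv N t, ∑ x ∈ iv N X0, ∑ y ∈ iv N Y0,
        bP k (sft N R S a b (f x0)) (sft N R S a b (f' x0)) x y ⬝ᵥ
        bP k (sft N R S a b (f x0)) (sft N R S a b (f' x0)) x y ≤
      ∑ i ∈ iv (N - k) t, ∑ d ∈ Icc (-1 : ℤ) 1, ∑ n' ∈ iv (N - k) R, ∑ m' ∈ iv (N - k) S,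
        if n' + d ∈ iv (N - k) R ∧ Qd k i (n' + d) m' then B * 8 ^ k else 0 := by
    rw [← iv_sum hk.le t]
    refine sum_le_sum fun i _ => ?_
    refine (sum_le_sum fun x0 _ => h1 x0).trans ?_
    rw [sum_comm]
    refine sum_le_sum fun d _ => ?_
    rw [sum_comm]
    refine sum_le_sum fun n' hn' => ?_
    rw [sum_comm]
    refine sum_le_sum fun m' hm' => ?_
    by_cases hh : n' + d ∈ iv (N - k) R ∧ Qd k i (n' + d) m'
    · rw [if_pos hh]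
      refine le_trans (le_of_eq ?_) (mass i n' hn' m' hm')
      refine sum_congr rfl fun x0 hx0 => ?_
      rw [mem_iv] at hx0
      rw [hx0, if_pos hh]
    · rw [if_neg hh]
      refine le_of_eq (sum_eq_zero fun x0 hx0 => ?_)
      rw [mem_iv] at hx0
      rw [hx0, if_neg hh]
  have h8 : (0 : ℝ) ≤ B * 8 ^ k := by positivity
  have h3 : ∀ i, ∀ d ∈ Icc (-1 : ℤ) 1, ∑ n' ∈ iv (N - k) R, ∑ m' ∈ iv (N - k) S,
        (if n' + d ∈ iv (N - k) R ∧ Qd k i (n' + d) m' then B * 8 ^ k else 0) ≤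
      ∑ n' ∈ iv (N - k) R, ∑ m' ∈ iv (N - k) S, (if Qd k i n' m' then B * 8 ^ k else 0) := by
    intro i d _
    refine le_trans (le_of_eq ?_) (sum_tr_le (iv (N - k) R) (iv (N - k) R) d
      (h := fun n' => ∑ m' ∈ iv (N - k) S, (if Qd k i n' m' then B * 8 ^ k else 0))
      fun n' => sum_nonneg fun m' _ => ?_)
    · refine sum_congr rfl fun n' _ => ?_
      by_cases hh : n' + d ∈ iv (N - k) R
      · rw [if_pos hh]
        refine sum_congr rfl fun m' _ => ?_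
        refine if_congr ?_ rfl rfl
        exact ⟨fun h => h.2, fun h => ⟨hh, h⟩⟩
      · rw [if_neg hh]
        refine sum_eq_zero fun m' _ => ?_
        rw [if_neg fun h => hh h.1]
    · split_ifs
      · exact h8
      · exact le_rfl
  refine h2.trans ((sum_le_sum fun i _ => sum_le_sum fun d hd => h3 i d hd).trans (le_of_eq ?_))
  simp only [sum_const, Int.card_Icc]
  rw [← iv_sum hk.le t]
  have e3 : ∀ i ∈ iv (N - k) t, ∑ x0 ∈ iv k i, ∑ n' ∈ iv (N - k) R, ∑ m' ∈ iv (N - k) S,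
        (if Qd k (ix k x0) n' m' then (4 : ℝ) ^ k else 0) =
      2 ^ k * ∑ n' ∈ iv (N - k) R, ∑ m' ∈ iv (N - k) S,
        (if Qd k i n' m' then (4 : ℝ) ^ k else 0) := by
    intro i _
    have e4 : ∀ x0 ∈ iv k i, ∑ n' ∈ iv (N - k) R, ∑ m' ∈ iv (N - k) S,
        (if Qd k (ix k x0) n' m' then (4 : ℝ) ^ k else 0) =
        ∑ n' ∈ iv (N - k) R, ∑ m' ∈ iv (N - k) S,
        (if Qd k i n' m' then (4 : ℝ) ^ k else 0) := by
      intro x0 hx0
      rw [mem_iv] at hx0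
      rw [hx0]
    rw [sum_congr rfl e4, sum_const, card_iv, nsmul_eq_mul]
    push_cast
    rfl
  rw [sum_congr rfl e3, mul_sum]
  refine sum_congr rfl fun i _ => ?_
  rw [mul_sum, mul_sum, smul_sum]
  refine sum_congr rfl fun n' _ => ?_
  rw [mul_sum, mul_sum, smul_sum]
  refine sum_congr rfl fun m' _ => ?_
  have e8 : (8 : ℝ) ^ k = 2 ^ k * 4 ^ k := by
    rw [← mul_pow]
    norm_num
  have e9 : ((1 : ℤ) + 1 - -1).toNat = 3 := rfl
  split_ifs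
  · rw [e8, nsmul_eq_mul, e9]
    push_cast
    ring
  · simp

/-- **The affected rows of a shifted family.** -/
theorem born_sum {N : ℕ} {t R S a b : ℤ} {B P : ℝ} (hB : 0 ≤ B)
    {f : ℤ → ℕ → ℤ → ℤ → κ → ℝ} {Qd : ℕ → ℤ → ℤ → ℤ → Prop}
    (agree : ∀ x0, ∀ k < N, ∀ n' m', ¬ Qd k (ix k x0) n' m' → ∀ z ∈ iv k n', ∀ y ∈ iv k m',
      f x0 (k + 1) z y = f x0 k z y)
    (mass : ∀ k < N, ∀ i, ∀ n' ∈ iv (N - k) R, ∀ m' ∈ iv (N - k) S, ∑ x0 ∈ iv k i,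
      ∑ z ∈ iv k n', ∑ y ∈ iv k m', f x0 (k + 1) z y ⬝ᵥ f x0 (k + 1) z y ≤ B * 8 ^ k)
    (pack : ∀ x0, ∑ k ∈ range N, ∑ r' ∈ iv (N - k) R, ∑ s' ∈ iv (N - k) S,
      (if Qd k (ix k x0) r' s' then (4 : ℝ) ^ k else 0) ≤ P * 4 ^ N) (X0 Y0 : ℤ) :
    ∑ x0 ∈ iv N t, ∑ k ∈ range N, ∑ x ∈ iv N X0, ∑ y ∈ iv N Y0,
        bP k (sft N R S a b (f x0 k)) (sft N R S a b (f x0 (k + 1))) x y ⬝ᵥ
        bP k (sft N R S a b (f x0 k)) (sft N R S a b (f x0 (k + 1))) x y ≤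
      3 * B * P * 8 ^ N := by
  rw [sum_comm]
  have h1 : ∀ k ∈ range N, ∑ x0 ∈ iv N t, ∑ x ∈ iv N X0, ∑ y ∈ iv N Y0,
        bP k (sft N R S a b (f x0 k)) (sft N R S a b (f x0 (k + 1))) x y ⬝ᵥ
        bP k (sft N R S a b (f x0 k)) (sft N R S a b (f x0 (k + 1))) x y ≤
      3 * B * ∑ x0 ∈ iv N t, ∑ n' ∈ iv (N - k) R, ∑ m' ∈ iv (N - k) S,
        (if Qd k (ix k x0) n' m' then (4 : ℝ) ^ k else 0) := by
    intro k hk
    rw [mem_range] at hk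
    exact bP_k hk hB (fun x0 => agree x0 k hk) (mass k hk) X0 Y0
  refine (sum_le_sum h1).trans ?_
  rw [← mul_sum, sum_comm]
  have h2 : ∑ x0 ∈ iv N t, ∑ k ∈ range N, ∑ n' ∈ iv (N - k) R, ∑ m' ∈ iv (N - k) S,
        (if Qd k (ix k x0) n' m' then (4 : ℝ) ^ k else 0) ≤ 2 ^ N * (P * 4 ^ N) := by
    refine (sum_le_sum fun x0 _ => pack x0).trans (le_of_eq ?_)
    rw [sum_const, card_iv, nsmul_eq_mul]
    push_cast
    rfl
  have e8 : (8 : ℝ) ^ N = 2 ^ N * 4 ^ N := by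
    rw [← mul_pow]
    norm_num
  calc 3 * B * _ ≤ 3 * B * (2 ^ N * (P * 4 ^ N)) := by
        exact mul_le_mul_of_nonneg_left h2 (by positivity)
    _ = 3 * B * P * 8 ^ N := by rw [e8]; ring

end gen

/-! ### The cut families -/

section data

open Vale.Agent.P141.PL.H315 (Tri)
open Vale.Agent.P141.H48 (BSl sst)
open Vale.Agent.P141.H576 (QD Dd_sst QD_pack)
open Vale.Agent.P141.H677.Sk (FDs)
open Vale.Agent.P141.H43.Seam (SBq)
open Vale.Agent.P141.H205 (CapS)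

variable {ι : Type} [Fintype ι] [DecidableEq ι] {q : H401.Num} {n : ℕ} {ez : ℝ}
  {F1 F2 F3 : ℕ → Pt → ℝ} {K : ℕ} {x : Pt} {s r : ℝ} {U : Tri} {g : ℤ → ℤ → ℝ}
  {u v : ℤ → ℤ → ι → ℝ} {A : ℤ → ℕ → ℤ → ℤ → ℝ} {b C : ℤ → ℕ → ℤ → ℤ → ι → ℝ}
  {Q1 Q2 Q3 : ℕ → Pt → Prop} {v' : ℤ → ℤ → ι → ℝ}

theorem CD_nonneg (h : FDs q n ez F1 F2 F3 K x s r U g u v A b C Q1 Q2 Q3 v') :
    0 ≤ q.CD * (q.Lm * s) := by
  have h1 := h.massb 0 (Nat.zero_le _) 0 (Or.inl rfl) 0 (2 ^ K * ix K x.1)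
    (mem_iv.2 (by
      rw [Nat.sub_zero]
      unfold ix
      rw [Int.mul_ediv_cancel_left _ (by positivity)])) (2 ^ K * ix K x.2.1)
    (mem_iv.2 (by
      rw [Nat.sub_zero]
      unfold ix
      rw [Int.mul_ediv_cancel_left _ (by positivity)]))
  rw [pow_zero, mul_one] at h1
  refine le_trans ?_ h1
  exact sum_nonneg fun _ _ => sum_nonneg fun _ _ => sum_nonneg fun _ _ =>
    Finset.sum_nonneg fun i _ => mul_self_nonneg _

theorem pack_b (h : FDs q n ez F1 F2 F3 K x s r U g u v A b C Q1 Q2 Q3 v') (hKn : K ≤ n)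
    (x0 R S : ℤ) : ∑ k ∈ range K, ∑ r' ∈ iv (K - k) R, ∑ s' ∈ iv (K - k) S,
      (if H401.qB q U K Q3 k (ix k x0) r' s' then (4 : ℝ) ^ k else 0) ≤ (q.cP + 2) * 4 ^ K := by
  refine le_trans ?_ (QD_pack (Dd_sst q.Lm U.1 K) h.B3 x0 hKn R S)
  refine sum_le_sum_of_subset_of_nonneg (range_subset_range.2 (Nat.le_succ K)) fun k _ _ =>
    sum_nonneg fun _ _ => sum_nonneg fun _ _ => ?_
  split_ifs
  · positivity
  · exact le_rfl

/-- **The affected rows of `shB`**, with labels `(0 ; b)`. -/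
theorem bP_FDs (h : FDs q n ez F1 F2 F3 K x s r U g u v A b C Q1 Q2 Q3 v') (hKn : K ≤ n)
    (t : ℤ) (s' : Pt) (X0 Y0 : ℤ) :
    ∑ x0 ∈ iv K t, ∑ k ∈ range K, ∑ x1 ∈ iv K X0, ∑ y ∈ iv K Y0, ∑ i,
        bP k (SBq (shB K (cx K x) s' (b x0)) k) (SBq (shB K (cx K x) s' (b x0)) (k + 1)) x1 y i ^ 2 ≤
      3 * (q.CD * (q.Lm * s)) * (q.cP + 2) * 8 ^ K := by
  have e1 : ∀ x0 k, SBq (shB K (cx K x) s' (b x0)) k =
      sft K (cx K x).1 (cx K x).2.1 s'.1 s'.2.1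
        (fun X Y => (Sum.elim (0 : ι → ℝ) (b x0 k X Y) : ι ⊕ ι → ℝ)) := by
    intro x0 k
    funext X Y
    unfold SBq shB sft
    split_ifs
    · rfl
    · funext i
      rcases i with i | i <;> rfl
  have h1 := born_sum (N := K) (t := t) (R := (cx K x).1) (S := (cx K x).2.1) (a := s'.1)
    (b := s'.2.1) (CD_nonneg h) (P := q.cP + 2)
    (f := fun x0 k X Y => (Sum.elim (0 : ι → ℝ) (b x0 k X Y) : ι ⊕ ι → ℝ))
    (Qd := fun k i n' m' => H401.qB q U K Q3 k i n' m')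
    (fun x0 k hk n' m' hq z hz y hy => by
      rw [h.agb x0 k hk n' m' hq z hz y hy])
    (fun k hk i n' hn' m' hm' => by
      refine le_trans (le_of_eq ?_) (h.massb k hk.le (k + 1) (Or.inr ⟨rfl, hk⟩) i n' hn' m' hm')
      refine sum_congr rfl fun x0 _ => sum_congr rfl fun z _ => sum_congr rfl fun y _ => ?_
      rw [sumElim_dotProduct_sumElim, zero_dotProduct, zero_add])
    (fun x0 => pack_b h hKn x0 _ _) X0 Y0
  refine le_trans (le_of_eq ?_) h1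
  refine sum_congr rfl fun x0 _ => sum_congr rfl fun k _ => sum_congr rfl fun x1 _ =>
    sum_congr rfl fun y _ => ?_
  rw [e1, e1]
  unfold dotProduct
  exact sum_congr rfl fun i _ => sq _

/-- the same for `shB` itself -/
theorem bP_FDs' (h : FDs q n ez F1 F2 F3 K x s r U g u v A b C Q1 Q2 Q3 v') (hKn : K ≤ n)
    (t : ℤ) (s' : Pt) (X0 Y0 : ℤ) :
    ∑ x0 ∈ iv K t, ∑ k ∈ range K, ∑ x1 ∈ iv K X0, ∑ y ∈ iv K Y0, ∑ i,
        bP k (shB K (cx K x) s' (b x0) k) (shB K (cx K x) s' (b x0) (k + 1)) x1 y i ^ 2 ≤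
      3 * (q.CD * (q.Lm * s)) * (q.cP + 2) * 8 ^ K := by
  have h1 := born_sum (N := K) (t := t) (R := (cx K x).1) (S := (cx K x).2.1) (a := s'.1)
    (b := s'.2.1) (CD_nonneg h) (P := q.cP + 2) (f := b)
    (Qd := fun k i n' m' => H401.qB q U K Q3 k i n' m')
    (fun x0 k hk n' m' hq z hz y hy => h.agb x0 k hk n' m' hq z hz y hy)
    (fun k hk i n' hn' m' hm' => h.massb k hk.le (k + 1) (Or.inr ⟨rfl, hk⟩) i n' hn' m' hm')
    (fun x0 => pack_b h hKn x0 _ _) X0 Y0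
  refine le_trans (le_of_eq ?_) h1
  refine sum_congr rfl fun x0 _ => sum_congr rfl fun k _ => sum_congr rfl fun x1 _ =>
    sum_congr rfl fun y _ => ?_
  unfold dotProduct shB
  exact sum_congr rfl fun i _ => sq _

/-- the first scale -/
theorem SBq_zero (h : FDs q n ez F1 F2 F3 K x s r U g u v A b C Q1 Q2 Q3 v') (x0 : ℤ) (s' : Pt)
    (x1 y : ℤ) : SBq (shB K (cx K x) s' (b x0)) 0 x1 y = 0 := by
  funext i
  unfold SBq shB sft
  rcases i with i | i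
  · rfl
  · change (if _ then _ else _ : ι → ℝ) i = 0
    split_ifs
    · rw [h.z0b]
      rfl
    · rfl

open Vale.Agent.P141.H747 (MSb)
open Vale.Agent.P141.H585.PairRX (MV)

/-- **The masses `MV` of the partner in the letters of `H585.PairRX.RX_BC`.** -/
theorem MV_FDs (h : FDs q n ez F1 F2 F3 K x s r U g u v A b C Q1 Q2 Q3 v') (hKn : K ≤ n)
    (t : ℤ) (s' : Pt) (X0 Y0 : ℤ) :
    ∑ x0 ∈ iv K t, MV 0 K Y0 X0 (MSb K (cx K x) b s' x0) ≤
      9 * (q.CD * (q.Lm * s)) * (q.cP + 2) * 8 ^ K := by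
  have h1 := bP_FDs h hKn t s' X0 Y0
  have e1 : ∀ x0, MV 0 K Y0 X0 (MSb K (cx K x) b s' x0) =
      3 * ∑ k ∈ range K, ∑ x1 ∈ iv K X0, ∑ y ∈ iv K Y0, ∑ i,
        bP k (SBq (shB K (cx K x) s' (b x0)) k) (SBq (shB K (cx K x) s' (b x0)) (k + 1))
          x1 y i ^ 2 := by
    intro x0
    unfold H585.PairRX.MV
    have e2 : ∑ x1 ∈ iv K X0, ∑ y ∈ iv K Y0, ∑ i, MSb K (cx K x) b s' x0 0 x1 y i ^ 2 = 0 := by
      refine sum_eq_zero fun x1 _ => sum_eq_zero fun y _ => sum_eq_zero fun i _ => ?_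
      have e3 : MSb K (cx K x) b s' x0 0 x1 y = 0 := SBq_zero h x0 s' x1 y
      rw [e3]
      simp
    rw [e2, zero_add, range_eq_Ico]
    rfl
  rw [sum_congr rfl fun x0 _ => e1 x0, ← mul_sum]
  linarith

end data

/-! ### Caps -/

section cap

open Vale.Agent.P141.H205 (CapS)
open Vale.Agent.P141.H297.Ch (Py sl Py_form Py_symm)
open Vale.Agent.P141.H43 (av av_half)
open Vale.Agent.P075 (Ix val)

variable {κ : Type*} [Fintype κ] [DecidableEq κ]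

/-- the operator cap of the Gram matrix of the rows from the cap of the square -/
theorem cap_sq {k : ℕ} {c : ℝ} (hc : 0 ≤ c) {F : ℤ → ℤ → κ → ℝ} {m n : ℤ}
    (hF : CapS c k k F m n) :
    (c • (1 : Matrix (Ix k × κ) (Ix k × κ) ℝ) - Py (sl k m F) k n).PosSemidef := by
  refine PosSemidef.of_dotProduct_mulVec_nonneg ?_ fun v => ?_
  · rw [IsHermitian, conjTranspose_eq_transpose_of_trivial, transpose_sub, Py_symm,
      transpose_smul, transpose_one]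
  have h1 : star v = v := rfl
  rw [h1, sub_mulVec, dotProduct_sub, Py_form, smul_mulVec, one_mulVec, dotProduct_smul,
    smul_eq_mul, sub_nonneg]
  set T : ℤ → ℝ := fun y => v ⬝ᵥ sl k m F y with hT
  set Z : ℝ := ∑ y ∈ iv k n, T y ^ 2 with hZ
  have nZ : 0 ≤ Z := sum_nonneg fun _ _ => sq_nonneg _
  have p2 : (0 : ℝ) < 2 ^ k := by positivity
  set G : Ix k × κ → ℝ := fun p => √((2 : ℝ) ^ k)⁻¹ *
    ∑ y ∈ iv k n, T y * F (2 ^ k * m + val k p.1) y p.2 with hG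
  have e1 : Z = ∑ p, v p * G p := by
    rw [hZ]
    have e2 : ∀ y ∈ iv k n, T y ^ 2 = ∑ p : Ix k × κ, v p *
        (√((2 : ℝ) ^ k)⁻¹ * (T y * F (2 ^ k * m + val k p.1) y p.2)) := by
      intro y _
      rw [sq]
      nth_rewrite 2 [hT]
      unfold dotProduct H297.Ch.sl
      rw [mul_sum]
      refine sum_congr rfl fun p _ => ?_
      ring
    rw [sum_congr rfl e2, sum_comm]
    refine sum_congr rfl fun p _ => ?_
    rw [hG]
    beta_reduce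
    rw [mul_sum, mul_sum]
  have e3 : ∑ p, G p ^ 2 ≤ (2 ^ k : ℝ)⁻¹ * (c * (2 ^ k * 2 ^ k) * Z) := by
    have h2 := hF T
    have e4 : ∑ p, G p ^ 2 = (2 ^ k : ℝ)⁻¹ * ∑ x ∈ iv k m, ∑ l,
        (∑ y ∈ iv k n, T y * F x y l) ^ 2 := by
      rw [PL.H588.sum_iv k m, Fintype.sum_prod_type, mul_sum]
      refine sum_congr rfl fun i _ => ?_
      rw [mul_sum]
      refine sum_congr rfl fun l _ => ?_
      rw [hG]
      beta_reduce
      rw [mul_pow, Real.sq_sqrt (by positivity)]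
    rw [e4]
    exact mul_le_mul_of_nonneg_left h2 (by positivity)
  have e5 : Z ^ 2 ≤ (v ⬝ᵥ v) * ((2 ^ k : ℝ)⁻¹ * (c * (2 ^ k * 2 ^ k) * Z)) := by
    have h3 := Finset.sum_mul_sq_le_sq_mul_sq Finset.univ v G
    rw [← e1] at h3
    refine h3.trans ?_
    have e6 : ∑ i, v i ^ 2 = v ⬝ᵥ v := sum_congr rfl fun i _ => sq _
    rw [e6]
    exact mul_le_mul_of_nonneg_left e3 (Finset.sum_nonneg fun i _ => mul_self_nonneg _)
  have nv : 0 ≤ v ⬝ᵥ v := Finset.sum_nonneg fun i _ => mul_self_nonneg _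
  have e7 : Z ≤ (v ⬝ᵥ v) * (c * 2 ^ k) := by
    by_contra hne
    push Not at hne
    have pZ : 0 < Z := lt_of_le_of_lt (by positivity) hne
    have e8 : (v ⬝ᵥ v) * ((2 ^ k : ℝ)⁻¹ * (c * (2 ^ k * 2 ^ k) * Z)) =
        (v ⬝ᵥ v) * (c * 2 ^ k) * Z := by
      field_simp
    rw [e8] at e5
    nlinarith
  have e9 : av k n (fun y => (v ⬝ᵥ sl k m F y) ^ 2) = (2 ^ k : ℝ)⁻¹ * Z := rfl
  rw [e9]
  calc (2 ^ k : ℝ)⁻¹ * Z ≤ (2 ^ k : ℝ)⁻¹ * ((v ⬝ᵥ v) * (c * 2 ^ k)) :=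
        mul_le_mul_of_nonneg_left e7 (by positivity)
    _ = c * (v ⬝ᵥ v) := by field_simp

/-- the outer cell one scale larger -/
theorem cap_sq1 {k : ℕ} {c : ℝ} (hc : 0 ≤ c) {F : ℤ → ℤ → κ → ℝ} {m : ℤ}
    (hF : ∀ n, CapS c k k F m n) (n : ℤ) :
    (c • (1 : Matrix (Ix k × κ) (Ix k × κ) ℝ) - Py (sl k m F) (k + 1) n).PosSemidef := by
  have h1 := (cap_sq hc (hF (2 * n))).add (cap_sq hc (hF (2 * n + 1)))
  have e : c • (1 : Matrix (Ix k × κ) (Ix k × κ) ℝ) - Py (sl k m F) (k + 1) n =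
      (1 / 2 : ℝ) • ((c • (1 : Matrix (Ix k × κ) (Ix k × κ) ℝ) - Py (sl k m F) k (2 * n)) +
        (c • (1 : Matrix (Ix k × κ) (Ix k × κ) ℝ) - Py (sl k m F) k (2 * n + 1))) := by
    have e2 : Py (sl k m F) (k + 1) n =
        (1 / 2 : ℝ) • (Py (sl k m F) k (2 * n) + Py (sl k m F) k (2 * n + 1)) := by
      ext i j
      exact av_half k n _
    rw [e2]
    module
  rw [e]
  exact h1.smul (by norm_num)

/-- labels `(0 ; b)` -/
theorem capS_inr {k : ℕ} {c : ℝ} {F : ℤ → ℤ → κ → ℝ} {m n : ℤ} (hF : CapS c k k F m n) :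
    CapS c k k (fun X Y => (Sum.elim (0 : κ → ℝ) (F X Y) : κ ⊕ κ → ℝ)) m n := by
  intro w
  refine le_trans (le_of_eq ?_) (hF w)
  refine sum_congr rfl fun X _ => ?_
  rw [Fintype.sum_sum_type]
  have e : ∑ a : κ, (∑ y ∈ iv k n, w y * (Sum.elim (0 : κ → ℝ) (F X y) : κ ⊕ κ → ℝ)
      (Sum.inl a)) ^ 2 = 0 := by
    refine sum_eq_zero fun a _ => ?_
    rw [sum_eq_zero fun y _ => by rw [Sum.elim_inl, Pi.zero_apply, mul_zero]]
    norm_num
  rw [e, zero_add]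
  rfl

end cap

section capd

open Vale.Agent.P141.PL.H315 (Tri)
open Vale.Agent.P141.H677.Sk (FDs)
open Vale.Agent.P141.H205 (CapS)
open Vale.Agent.P141.H297.Ch (Py sl)
open Vale.Agent.P141.H747 (MSb capS_sft)
open Vale.Agent.P141.H585.PairR (PB)
open Vale.Agent.P075 (Ix)

variable {ι : Type} [Fintype ι] [DecidableEq ι] {q : H401.Num} {n : ℕ} {ez : ℝ}
  {F1 F2 F3 : ℕ → Pt → ℝ} {K : ℕ} {x : Pt} {s r : ℝ} {U : Tri} {g : ℤ → ℤ → ℝ}
  {u v : ℤ → ℤ → ι → ℝ} {A : ℤ → ℕ → ℤ → ℤ → ℝ} {b C : ℤ → ℕ → ℤ → ℤ → ι → ℝ}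
  {Q1 Q2 Q3 : ℕ → Pt → Prop} {v' : ℤ → ℤ → ι → ℝ}

theorem capS_MSb (h : FDs q n ez F1 F2 F3 K x s r U g u v A b C Q1 Q2 Q3 v') (M s' : Pt)
    (x0 : ℤ) {k j : ℕ} (hk : k ≤ K) (hj : j = k ∨ (j = k + 1 ∧ k < K)) (m n' : ℤ) :
    CapS (4 * q.th s r ^ 2) k k (MSb K M b s' x0 j) m n' := by
  have h1 : ∀ n' m', CapS (q.th s r ^ 2) k k (b x0 j) n' m' := by
    rcases hj with hj | ⟨hj, hk'⟩
    · rw [hj]
      exact h.capb x0 k hk
    · rw [hj]
      exact h.capb1 x0 k hk'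
  exact capS_inr (capS_sft hk (sq_nonneg _) h1 M.1 M.2.1 s'.1 s'.2.1 m n')

/-- **The cap of the partner**, times `k` and `k + 1`. -/
theorem cap_PB (h : FDs q n ez F1 F2 F3 K x s r U g u v A b C Q1 Q2 Q3 v') (M s' : Pt)
    (x0 : ℤ) {k : ℕ} (hk : k ≤ K) (n' m : ℤ) :
    ((4 * q.th s r ^ 2) • (1 : Matrix (Ix k × (ι ⊕ ι)) (Ix k × (ι ⊕ ι)) ℝ) -
      PB (MSb K M b s' x0) k k n' m).PosSemidef :=
  cap_sq (by positivity) (capS_MSb h M s' x0 hk (Or.inl rfl) m n')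

/-- the cap of the affected rows of the partner, outer cell of scale `k + 1` -/
theorem cap_bP (h : FDs q n ez F1 F2 F3 K x s r U g u v A b C Q1 Q2 Q3 v') (M s' : Pt)
    (x0 : ℤ) {k : ℕ} (hk : k < K) (n' m : ℤ) :
    ((4 * q.th s r ^ 2) • (1 : Matrix (Ix k × (ι ⊕ ι)) (Ix k × (ι ⊕ ι)) ℝ) -
      Py (sl k m (bP k (MSb K M b s' x0 k) (MSb K M b s' x0 (k + 1)))) (k + 1) n').PosSemidef :=
  H297.Bir.bP_cap (cap_sq1 (by positivity)
    (fun n' => capS_MSb h M s' x0 hk.le (Or.inr ⟨rfl, hk⟩) m n') n')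

end capd

end

end Vale.Agent.P141.H565.MV
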