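import Vale.Agent.P141.H675.PhiX
import Vale.Agent.P141.H565.MVb

/-!
# P141, line A, flow part, hub `x1`: the masses of `b` on the grid

`phV1 : PartS H636.FDU PhV1`, over `H565.MV.MV_FDs`.
-/

namespace Vale.Agent.P141.H565

open Vale.Agent.P141.PL (cx)
open Vale.Agent.P141.H186.PS
open Vale.Agent.P141.H277.Phi
open Vale.Agent.P141.H675.PX

noncomputable section

open scoped Classical

theorem MM_ge {q : H401.Num} {s r κ : ℝ} {K : ℕ} (ht : 0 < q.t) (ht1 : q.t ≤ 1) (hs : 0 < s)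
    (hr : 1 ≤ r) (hκ : 1 ≤ κ) (hc : 0 ≤ q.c) (hd : 0 ≤ q.d) :
    q.Lm * s * 8 ^ K ≤ MM q s r κ K := by
  have h1 := lgS_one ht ht1 hr hκ
  have h2 : (1 : ℝ) ≤ lgS q r κ ^ 64 := one_le_pow₀ h1
  have h3 : q.Lm ≤ q.t ^ (-(64 * (q.c + q.d))) := by
    unfold H401.Num.Lm
    exact Real.rpow_le_rpow_of_exponent_ge ht ht1 (by linarith)
  have h4 : 0 ≤ q.t ^ (-(64 * (q.c + q.d))) := (Real.rpow_pos_of_pos ht _).le
  unfold MM
  have h5 : q.Lm * s * 8 ^ K ≤ q.t ^ (-(64 * (q.c + q.d))) * s * 8 ^ K := by gcongr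
  have h6 : 0 ≤ q.t ^ (-(64 * (q.c + q.d))) * s * 8 ^ K := by positivity
  nlinarith

/-- **The masses of `b` on the grid**, the statement of `H675.PX`. -/
theorem phV1 : PartS H636.FDU PhV1 := by
  refine PartS.of_slot (fun q => 9 * (q.CD * (q.cP + 2))) ?_
  intro ι _ _ q n ez F1 F2 F3 o K x s r U g u v A b' C' R κ E h j e _ _ _ _ _ _ _ _ hc _ hd _ _ _
    hcP _ hCD ht ht1 _ _ _ _ hKn hs hr _ hD hκ _ _ _ _ _ _
  obtain ⟨_, _, Q1, Q2, Q3, v', hF⟩ := hD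
  intro t' _
  refine (MV.MV_FDs hF hKn t' h _ _).trans ?_
  have h1 := MM_ge (K := K) ht ht1 hs hr hκ hc hd.le
  have h2 : 0 ≤ MM q s r κ K := MM_nonneg ht ht1 hs hr hκ
  have h3 : (9 * (q.CD * (q.cP + 2))) * (q.Lm * s * 8 ^ K) ≤
      (9 * (q.CD * (q.cP + 2))) * MM q s r κ K :=
    mul_le_mul_of_nonneg_left h1 (by positivity)
  have h4 : 9 * (q.CD * (q.cP + 2)) ≤
      max 1 ((fun q : H401.Num => 9 * (q.CD * (q.cP + 2))) (wot q)) := le_max_right _ _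
  have h5 := mul_le_mul_of_nonneg_right h4 h2
  calc 9 * (q.CD * (q.Lm * s)) * (q.cP + 2) * 8 ^ K =
      (9 * (q.CD * (q.cP + 2))) * (q.Lm * s * 8 ^ K) := by ring
    _ ≤ _ := h3.trans h5

end

end Vale.Agent.P141.H565
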