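import Vale.Agent.P141.H675.PhiX
import Vale.Agent.P141.H377.CapB
import Vale.Agent.P141.H297.BirthX
import Vale.Agent.P141.H386.MassS
import Vale.Agent.P141.H565.PhV1
import Vale.Agent.P141.H565.LagFd

/-!
# P141, line A, flow part, hub `x1`: the births of `b`

`phBo : PartS H636.FDU PhBo`, over `H297.BirX.birth_x0`.
-/

namespace Vale.Agent.P141.H565

open Finset Matrix
open Vale.Agent.P141.PL (Pt iv hs ix mem_iv ix_ix cb mem_cb cx card_iv)
open Vale.Agent.P141.H677 Vale.Agent.P141.H677.Sk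
open Vale.Agent.P141.H43 (nsq nsq_nonneg)
open Vale.Agent.P141.H186.PS
open Vale.Agent.P141.H277.Phi
open Vale.Agent.P141.H675.PX
open Vale.Agent.P141.H585.PairRX
open Vale.Agent.P141.H297.BirX (birth_x0 st_k gpack_bornX Sb_born bornX)

noncomputable section

open scoped Classical

/-- the number of the births -/
theorem bo_num {ez m N0 M0 X0 c Y : ℝ} (hez : 0 < ez) (hm : 0 < m) (hm1 : m ≤ 1) (hN : 0 ≤ N0)
    (hM : 0 ≤ M0) (hc : 0 ≤ c) (hX : c ≤ X0) (hY' : Y ≤ X0) :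
    (m ^ (1 / 4 : ℝ)) ^ 2 * (Y * M0) + c * ((√ez)⁻¹ ^ 2 * (N0 * (ez * m))) ≤
      X0 * (N0 + M0) * √m := by
  have e1 : (m ^ (1 / 4 : ℝ)) ^ 2 = √m := by
    rw [← Real.rpow_natCast (m ^ (1 / 4 : ℝ)), ← Real.rpow_mul hm.le, Real.sqrt_eq_rpow]
    norm_num
  have e2 : (√ez)⁻¹ ^ 2 * (N0 * (ez * m)) = N0 * m := by
    rw [inv_pow, Real.sq_sqrt hez.le]
    field_simp
  have e3 : m ≤ √m := by
    have h4 : √m ≤ 1 := Real.sqrt_le_one.2 hm1
    have h5 := Real.mul_self_sqrt hm.le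
    nlinarith [Real.sqrt_nonneg m]
  have h0 : 0 ≤ √m := Real.sqrt_nonneg m
  rw [e1, e2]
  have h1 : √m * (Y * M0) ≤ X0 * M0 * √m := by
    have := mul_le_mul_of_nonneg_right hY' hM
    nlinarith
  have h2 : c * (N0 * m) ≤ X0 * N0 * √m := by
    have a1 : c * (N0 * m) ≤ c * (N0 * √m) :=
      mul_le_mul_of_nonneg_left (mul_le_mul_of_nonneg_left e3 hN) hc
    have a2 : c * (N0 * √m) ≤ X0 * (N0 * √m) :=
      mul_le_mul_of_nonneg_right hX (mul_nonneg hN h0)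
    linarith
  linarith

/-- **The births of `b`**, the statement of `H675.PX`. -/
theorem phBo : PartS H636.FDU PhBo := by
  refine PartS.of_slot (fun q => 4 * (3 + 19278 * (q.cP + 2))) ?_
  intro ι _ _ q n ez F1 F2 F3 o K x s r U g u v A b' C' R κ E h j e _ _ _ _ _ _ _ _ hc _ hd _ _ _
    hcP _ hCD ht ht1 _ _ _ _ hKn hs hr hcls hD hκ _ _ _ _ hj _
  obtain ⟨_, _, Q1, Q2, Q3, v', hF⟩ := hD
  intro hez m N0 hm hm1 hN hnum t' ht'
  refine ⟨H377.B1.BoT K (cx K x) b' h, fun x0 _ k _ x1 x2 hA => H377.B1.hBo_T K _ b' h x0 k x1 x2 hA,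
    ?_⟩
  have hL : 0 ≤ q.Lm := by
    unfold H401.Num.Lm
    exact (Real.rpow_pos_of_pos ht _).le
  have hM1 := MM_ge (K := K) ht ht1 hs hr hκ hc hd.le
  have hM0 : 0 ≤ MM q s r κ K := MM_nonneg ht ht1 hs hr hκ
  have nez : 0 ≤ (√ez)⁻¹ := by positivity
  have sq1 : (√ez)⁻¹ ^ 2 = ez⁻¹ := by
    rw [inv_pow, Real.sq_sqrt hez.le]
  -- the numbers of the normalised family
  have hN' : NumX K (cx K x) R (Cz ez C') h ((√ez)⁻¹ ^ 2 * (N0 * (ez * m))) :=
    LF.NumX_smul hnum (√ez)⁻¹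
  set c : ℝ := q.cP + 2 with hcdef
  have hc0 : 0 ≤ c := by rw [hcdef]; linarith
  have hQ : H460.QPack n (H8B.Q3F q U K Q3) c :=
    H8B.qpack_QD (H576.Dd_sst q.Lm U.1 K) hF.B3
  have hBo : ∀ x0 ∈ iv K t', ∀ k < K, ∀ n' m', H377.B1.BoT K (cx K x) b' h x0 k n' m' →
      ∃ y x', ix (k + 1) y = n' ∧ ix k x' = m' ∧
      H8B.Q3F q U K Q3 k (ix k x0, ix k (x' + h.1), ix k (y + h.2.1)) := by
    intro x0 _ k hk n' m' hB
    obtain ⟨x1, x2, h1, h2, -, -, h3⟩ := H377.B1.BoT_q hF hk hB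
    exact ⟨x2, x1, h2, h1, h3⟩
  set Y : ℝ := 4 * (q.Lm * s * 8 ^ K) with hY
  have hY0 : 0 ≤ Y := by positivity
  have hsc : ∀ x0 k z w, nsq (Cz ez C' x0 k z w) = ez⁻¹ * nsq (C' x0 k z w) := by
    intro x0 k z w
    unfold H277.Phi.Cz
    rw [LF.nsq_smul, sq1]
  have hMS := st_k (K := K) (M := cx K x) (t := t') (C := Cz ez C') (Y := Y)
    (by
      refine le_of_eq_of_le ?_ hY0
      refine sum_eq_zero fun x0 _ => sum_eq_zero fun w _ => sum_eq_zero fun z _ => ?_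
      rw [hsc, LF.C_zero hF]
      unfold H43.nsq
      simp)
    (fun S Q P hP hQ hS => by
      have h1 := H386.MS.mass_S hF hcls.toCls hez.le hL hs.le hKn hQ hS t'
      have e1 : ∑ x0 ∈ iv K t', ∑ k ∈ range K, ∑ w ∈ iv K (cx K x).1, ∑ z ∈ iv K (cx K x).2.2,
          (if S k (x0, w, z) then nsq (Cz ez C' x0 (k + 1) z w) else 0) =
          ez⁻¹ * ∑ x0 ∈ iv K t', ∑ k ∈ range K, ∑ w ∈ iv K (cx K x).1,
            ∑ z ∈ iv K (cx K x).2.2,
              (if S k (x0, w, z) then nsq (C' x0 (k + 1) z w) else 0) := by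
        simp only [mul_sum]
        refine sum_congr rfl fun x0 _ => sum_congr rfl fun k _ => sum_congr rfl fun w _ =>
          sum_congr rfl fun z _ => ?_
        split_ifs
        · exact hsc ..
        · rw [mul_zero]
      rw [e1]
      calc _ ≤ ez⁻¹ * (4 * ez * q.Lm * s * (P * 8 ^ K)) :=
            mul_le_mul_of_nonneg_left h1 (by positivity)
        _ = P * Y := by
            rw [hY]
            field_simp
        _ ≤ (1 + P) * Y := by nlinarith)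
    (S := H297.BirX.Sb K t' (H377.B1.BoT K (cx K x) b' h) h j)
    (P := 19278 * c) (by positivity) (gpack_bornX hQ hKn)
    (fun k _ y hy => Sb_born hj hBo k y hy)
  have h2 := birth_x0 hKn hN' ht' hj hc0 hQ hBo hMS 0 ((cx K x).1 - e.1) ((cx K x).2.2 - e.2.2)
    (m ^ (1 / 4 : ℝ))
  refine le_trans (le_of_eq ?_) (h2.trans ?_)
  · rfl
  · have nc : 0 ≤ 3 + 19278 * c := by positivity
    have h3 : (m ^ (1 / 4 : ℝ)) ^ 2 * ((3 + 19278 * c) * Y) +
        (3 + 19278 * c) * ((√ez)⁻¹ ^ 2 * (N0 * (ez * m))) ≤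
        (m ^ (1 / 4 : ℝ)) ^ 2 * ((4 * (3 + 19278 * c)) * MM q s r κ K) +
        (3 + 19278 * c) * ((√ez)⁻¹ ^ 2 * (N0 * (ez * m))) := by
      have h4 : (3 + 19278 * c) * Y ≤ (4 * (3 + 19278 * c)) * MM q s r κ K := by
        rw [hY]
        nlinarith [mul_le_mul_of_nonneg_left hM1 nc]
      have h5 : 0 ≤ (m ^ (1 / 4 : ℝ)) ^ 2 := sq_nonneg _
      linarith [mul_le_mul_of_nonneg_left h4 h5]
    refine h3.trans (bo_num hez hm hm1 hN hM0 nc ?_ ?_)
    · refine le_trans ?_ (le_max_right _ _)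
      change 3 + 19278 * c ≤ 4 * (3 + 19278 * (q.cP + 2))
      rw [← hcdef]
      linarith
    · refine le_trans ?_ (le_max_right _ _)
      exact le_rfl

end

end Vale.Agent.P141.H565
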