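import Vale.Agent.P141.H565.StopNum
import Vale.Agent.P141.H841.Far

/-!
# P141, line (A), generations, [G1] `prob_nb`: large values of the moving slot near a point

Letters of `H841.Lay`, `H876.WinS`, `H841.Far`; fixed `x1`, `y`; any signs `|s| ≤ 1`.

* `HsR` : squared Hilbert-Schmidt norm of the slot, `EH` : energy of a layer in that norm;
* `dif_sum` : the differences of the slot between `y` and `y ± 2 ^ j`, summed over `j` and `x₀`;
* `prob_nb` : the number of the `x₀` for which the slot at some scale `j` is larger than `κ / 2` at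
  one of the points `y`, `y ± 2 ^ j`;
* `prob_nbS` : the same for all points at distance at most one cell, without the far layers.
-/

namespace Vale.Agent.P141.H565.ProbNb

open Finset Matrix
open Vale.Agent.P141.PL (iv ix hs mem_iv ix_ix card_iv)
open Vale.Agent.P141.H922 (ck iv_iv)
open Vale.Agent.P141.H43 (nsq nsq_nonneg)
open Vale.Agent.P141.H841 (Rm Rm_vec gl Nn Nn_nonneg nsq_add_le nsq_sub_le nsq_smul nsq_sum_le
  nsq_gl_le sum_inv_sq ix_bd ix_half Nrb far ix_of)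
open Vale.Agent.P141.H876 (En En_nonneg wt_Nn wn near_root)
open Vale.Agent.P141.H565.StopNum (cnt mar mar_ix mar_stop)

noncomputable section

open scoped Classical

variable {ι : Type*} [Fintype ι]

/-! ### Large values of a martingale -/

/-- the number of the points where a martingale is large at some time -/
theorem mar_large (g : ℕ → ℤ → ι → ℝ) (n : ℕ) (T : ℤ) {c : ℝ} (hc : 0 < c) :
    (((iv n T).filter fun x => ∃ j, j ≤ n ∧ c ≤ nsq (mar g n j x)).card : ℝ) * c ≤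
      ∑ i ∈ range n, ∑ x ∈ iv n T, nsq (g (i + 1) (ix (i + 1) x)) := by
  set a : ℕ → ℤ → Prop := fun k q => c ≤ nsq (mar g n k (2 ^ k * q)) with ha
  have hcell : ∀ (k : ℕ) (x : ℤ), mar g n k (2 ^ k * ix k x) = mar g n k x := by
    intro k x
    refine mar_ix g n ?_
    unfold ix
    rw [Int.mul_ediv_cancel_left _ (by positivity)]
  have h := mar_stop g n T a 1
  rw [Nat.cast_one, one_mul] at h
  refine le_trans ?_ h
  rw [sum_comm, ← nsmul_eq_mul, ← sum_const, sum_filter]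
  refine sum_le_sum fun x _ => ?_
  have hnn : ∀ k ∈ range n, (0 : ℝ) ≤ (if a k (ix k x) ∧ cnt a n k (ix k x) ≤ 1 then
      nsq (mar g n k x) else 0) := by
    intro k _
    split_ifs
    · exact nsq_nonneg _
    · exact le_rfl
  split_ifs with hx
  · obtain ⟨j, hj, hjx⟩ := hx
    have hjn : j < n := by
      rcases hj.lt_or_eq with h1 | h1
      · exact h1
      · exfalso
        subst h1
        unfold mar at hjx
        rw [Ico_self, sum_empty, H841.nsq_zero] at hjx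
        linarith
    set S := (range n).filter fun l => a l (ix l x) with hS
    have hjS : j ∈ S := by
      rw [hS, mem_filter, mem_range]
      refine ⟨hjn, ?_⟩
      rw [ha]
      simp only
      rw [hcell]
      exact hjx
    have hne : S.Nonempty := ⟨j, hjS⟩
    set k := S.max' hne with hk
    have hkS : k ∈ S := max'_mem S hne
    have hk2 := hkS
    rw [hS, mem_filter, mem_range] at hk2
    have hcnt : cnt a n k (ix k x) ≤ 1 := by
      unfold StopNum.cnt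
      have hsub : ((Ico k n).filter fun l => a l (ix (l - k) (ix k x))) ⊆ {k} := by
        intro l hl
        rw [mem_filter, mem_Ico] at hl
        obtain ⟨⟨hkl, hln⟩, hal⟩ := hl
        rw [ix_ix, Nat.add_sub_cancel' hkl] at hal
        rw [mem_singleton]
        have hlS : l ∈ S := by
          rw [hS, mem_filter, mem_range]
          exact ⟨hln, hal⟩
        exact le_antisymm (le_max' S l hlS) hkl
      exact (card_le_card hsub).trans (le_of_eq (card_singleton k))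
    refine le_trans ?_ (single_le_sum hnn (mem_range.2 hk2.1))
    rw [if_pos ⟨hk2.2, hcnt⟩]
    have h3 : c ≤ nsq (mar g n k (2 ^ k * ix k x)) := hk2.2
    rw [hcell] at h3
    exact h3
  · exact sum_nonneg hnn

/-! ### The differences of the slot -/

variable {Mx : ℕ → ℤ → Matrix ι ι ℝ} {o x1 T : ℤ} {s : ℕ → ℤ → ℤ → ℝ} {n : ℕ}

/-- the values of a layer depend only on the cell of the half scale -/
theorem lay_val (i : ℕ) (x0 : ℤ) (w : ι → ℝ) {p y : ℤ} (h : ix i p = ix i y) :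
    hs (i + 1) p • gl Mx o x1 s (i + 1) x0 w (ix (i + 1) p) =
      hs (i + 1) y • gl Mx o x1 s (i + 1) x0 w (ix (i + 1) y) := by
  have e : ix (i + 1) p = ix (i + 1) y := by rw [ix_half, ix_half, h]
  have e2 : hs (i + 1) p = hs (i + 1) y := by
    unfold PL.hs
    rw [Nat.add_sub_cancel, h]
  rw [e, e2]

/-- **The difference of the slot between two points**, one vector. -/
theorem dif_le (hs1 : ∀ k a b, |s k a b| ≤ 1) {j : ℕ} (x0 p y : ℤ) (w : ι → ℝ) :
    nsq (Rm Mx o x1 s n j x0 p *ᵥ w - Rm Mx o x1 s n j x0 y *ᵥ w) ≤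
      ∑ i ∈ Ico j n, (if ix i p = ix i y then 0 else 4 * ((i + 1 - j : ℕ) : ℝ) ^ 2 *
        (Nn Mx o x1 (i + 1) x0 p w + Nn Mx o x1 (i + 1) x0 y w)) := by
  rw [Rm_vec, Rm_vec, ← sum_sub_distrib]
  refine (nsq_sum_le (Ico j n) (fun i => ((i + 1 - j : ℕ) : ℝ)) (fun i hi => ?_) _).trans ?_
  · rw [mem_Ico] at hi
    have : 0 < i + 1 - j := by omega
    exact_mod_cast this
  · have h1 : ∑ i ∈ Ico j n, (((i + 1 - j : ℕ) : ℝ))⁻¹ ^ 2 ≤ 2 := by
      have h2 := sum_inv_sq (n - j)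
      rw [sum_Ico_eq_sum_range]
      refine le_trans (le_of_eq (sum_congr rfl fun i _ => ?_)) h2
      have : ((j + i + 1 - j : ℕ) : ℝ) = (i : ℝ) + 1 := by
        have : j + i + 1 - j = i + 1 := by omega
        rw [this]; push_cast; ring
      rw [this]
    refine (mul_le_mul_of_nonneg_right h1 (sum_nonneg fun i _ =>
      mul_nonneg (by positivity) (nsq_nonneg _))).trans ?_
    rw [mul_sum]
    refine sum_le_sum fun i _ => ?_
    split_ifs with hc
    · rw [lay_val i x0 w hc, sub_self, H841.nsq_zero, mul_zero, mul_zero]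
    · have nv : ∀ q : ℤ, nsq (hs (i + 1) q • gl Mx o x1 s (i + 1) x0 w (ix (i + 1) q)) ≤
          Nn Mx o x1 (i + 1) x0 q w := by
        intro q
        rw [nsq_smul, sq, PL.hs_mul_self, one_mul]
        exact nsq_gl_le hs1 _ _ _ _
      have h3 := nsq_sub_le (hs (i + 1) p • gl Mx o x1 s (i + 1) x0 w (ix (i + 1) p))
        (hs (i + 1) y • gl Mx o x1 s (i + 1) x0 w (ix (i + 1) y))
      have h4 := nv p
      have h5 := nv y
      have h6 : (0 : ℝ) ≤ ((i + 1 - j : ℕ) : ℝ) ^ 2 := by positivity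
      have h7 := mul_le_mul_of_nonneg_left (h3.trans (by linarith :
        2 * nsq (hs (i + 1) p • gl Mx o x1 s (i + 1) x0 w (ix (i + 1) p)) +
          2 * nsq (hs (i + 1) y • gl Mx o x1 s (i + 1) x0 w (ix (i + 1) y)) ≤
        2 * (Nn Mx o x1 (i + 1) x0 p w + Nn Mx o x1 (i + 1) x0 y w))) h6
      linarith

/-- two points at distance at most `2 ^ j` in two cells: near the border -/
theorem nrb_of {i j : ℕ} {p y : ℤ} (h1 : y - 2 ^ j ≤ p) (h2 : p ≤ y + 2 ^ j)
    (h : ix i p ≠ ix i y) : Nrb j i y := by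
  obtain ⟨b1, b2⟩ := ix_bd i y
  unfold Nrb
  by_contra hc
  rw [not_or, not_lt, not_le] at hc
  exact h (ix_of (by linarith [hc.1]) (by linarith [hc.2]))

/-- the sum over `x₀` of the square of a layer -/
theorem Nn_sum (ho : o = 1 ∨ o = -1) {i j : ℕ} (hi : i + 1 ≤ n) (hj : j ≤ n) {p y : ℤ}
    (h1 : y - 2 ^ j ≤ p) (h2 : p ≤ y + 2 ^ j) (w : ι → ℝ) :
    ∑ x0 ∈ iv n T, Nn Mx o x1 (i + 1) x0 p w ≤ En Mx n T x1 (ix n y) (i + 1) w := by
  obtain ⟨c1, c2⟩ := near_root hj h1 h2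
  have h3 := wt_Nn (Mx := Mx) (x1 := x1) (T := T) (M3 := ix n y) (n := n) ho (W := fun _ => 1)
    (e := 1) (k := i + 1) (fun _ => zero_le_one) (fun q => by
      rw [sum_const, card_iv, nsmul_eq_mul]
      push_cast
      linarith) hi (p := p) c1 c2 w
  rw [Nat.sub_self, pow_zero, mul_one, one_mul] at h3
  simpa only [one_mul] using h3

/-- **The difference between `y` and a point at distance `2 ^ j`**, summed over `x₀`. -/
theorem dif_x0 (hs1 : ∀ k a b, |s k a b| ≤ 1) (ho : o = 1 ∨ o = -1) {j : ℕ} (hj : j ≤ n)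
    {p y : ℤ} (h1 : y - 2 ^ j ≤ p) (h2 : p ≤ y + 2 ^ j) (w : ι → ℝ) :
    ∑ x0 ∈ iv n T, nsq (Rm Mx o x1 s n j x0 p *ᵥ w - Rm Mx o x1 s n j x0 y *ᵥ w) ≤
      ∑ i ∈ range n, (if j ≤ i ∧ Nrb j i y then 8 * ((i + 1 - j : ℕ) : ℝ) ^ 2 *
        En Mx n T x1 (ix n y) (i + 1) w else 0) := by
  refine (sum_le_sum fun x0 _ => dif_le hs1 x0 p y w).trans ?_
  rw [sum_comm]
  have e1 : ∑ i ∈ range n, (if j ≤ i ∧ Nrb j i y then 8 * ((i + 1 - j : ℕ) : ℝ) ^ 2 *
      En Mx n T x1 (ix n y) (i + 1) w else 0) = ∑ i ∈ Ico j n, (if Nrb j i y then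
        8 * ((i + 1 - j : ℕ) : ℝ) ^ 2 * En Mx n T x1 (ix n y) (i + 1) w else 0) := by
    have hsub : Ico j n ⊆ range n := by
      intro i hi
      rw [mem_Ico] at hi
      exact mem_range.2 hi.2
    rw [← sum_subset hsub (f := fun i => if j ≤ i ∧ Nrb j i y then
      8 * ((i + 1 - j : ℕ) : ℝ) ^ 2 * En Mx n T x1 (ix n y) (i + 1) w else 0)]
    · refine sum_congr rfl fun i hi => ?_
      rw [mem_Ico] at hi
      simp only [hi.1, true_and]
    · intro i hi hi2
      rw [mem_range] at hi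
      rw [mem_Ico, not_and] at hi2
      exact if_neg fun h => hi2 h.1 hi
  rw [e1]
  refine sum_le_sum fun i hi => ?_
  have hin : i + 1 ≤ n := (mem_Ico.1 hi).2
  by_cases hc : ix i p = ix i y
  · simp only [hc, if_true, sum_const_zero]
    split_ifs
    · exact mul_nonneg (by positivity) (En_nonneg _ _)
    · exact le_rfl
  · simp only [hc, if_false]
    rw [if_pos (nrb_of h1 h2 hc), ← mul_sum, sum_add_distrib]
    have a1 := Nn_sum (Mx := Mx) (x1 := x1) (T := T) ho hin hj h1 h2 w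
    have a2 := Nn_sum (Mx := Mx) (x1 := x1) (T := T) ho hin hj (p := y) (y := y)
      (by linarith [pow_pos (two_pos : (0 : ℤ) < 2) j])
      (by linarith [pow_pos (two_pos : (0 : ℤ) < 2) j]) w
    have h6 : (0 : ℝ) ≤ 4 * ((i + 1 - j : ℕ) : ℝ) ^ 2 := by positivity
    have := mul_le_mul_of_nonneg_left (add_le_add a1 a2) h6
    linarith

theorem sum_cube (L i : ℕ) : ∑ j ∈ range (i + 1), (if i < j + L then ((i + 1 - j : ℕ) : ℝ) ^ 2
    else 0) ≤ (L : ℝ) ^ 3 := by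
  rw [← sum_range_reflect]
  have e : ∀ d ∈ range (i + 1), (if i < i + 1 - 1 - d + L then
      ((i + 1 - (i + 1 - 1 - d) : ℕ) : ℝ) ^ 2 else 0) =
      if d < L then ((d : ℝ) + 1) ^ 2 else 0 := by
    intro d hd
    rw [mem_range] at hd
    have e1 : i + 1 - (i + 1 - 1 - d) = d + 1 := by omega
    rw [e1]
    by_cases h : d < L
    · rw [if_pos (by omega), if_pos h]
      push_cast
      rfl
    · rw [if_neg (by omega), if_neg h]
  rw [sum_congr rfl e, ← sum_filter]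
  have hsub : (range (i + 1)).filter (fun d => d < L) ⊆ range L := by
    intro d hd
    exact mem_range.2 (mem_filter.1 hd).2
  refine (sum_le_sum_of_subset_of_nonneg hsub fun _ _ _ => by positivity).trans ?_
  have h2 : ∀ d ∈ range L, ((d : ℝ) + 1) ^ 2 ≤ (L : ℝ) ^ 2 := by
    intro d hd
    rw [mem_range] at hd
    have : (d : ℝ) + 1 ≤ L := by exact_mod_cast hd
    exact pow_le_pow_left₀ (by positivity) this 2
  refine (sum_le_sum h2).trans (le_of_eq ?_)
  rw [sum_const, card_range, nsmul_eq_mul]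
  ring

/-- the near and the far layers, summed over the scales -/
theorem near_far (n L : ℕ) {b : ℕ → ℝ} (hb : ∀ i, 0 ≤ b i) (y : ℤ) :
    ∑ j ∈ range (n + 1), ∑ i ∈ range n, (if j ≤ i ∧ Nrb j i y then
      8 * ((i + 1 - j : ℕ) : ℝ) ^ 2 * b i else 0) ≤
      8 * (L : ℝ) ^ 3 * ∑ i ∈ range n, b i + far n L b y := by
  have h1 : ∑ j ∈ range (n + 1), ∑ i ∈ range n, (if j ≤ i ∧ Nrb j i y then
      8 * ((i + 1 - j : ℕ) : ℝ) ^ 2 * b i else 0) ≤
      ∑ j ∈ range (n + 1), ∑ i ∈ range n, (if j ≤ i ∧ i < j + L then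
        8 * ((i + 1 - j : ℕ) : ℝ) ^ 2 * b i else 0) + far n L b y := by
    unfold H841.far
    rw [← sum_add_distrib]
    refine sum_le_sum fun j _ => ?_
    rw [← sum_add_distrib]
    refine sum_le_sum fun i _ => ?_
    have h0 : 0 ≤ 8 * ((i + 1 - j : ℕ) : ℝ) ^ 2 * b i := mul_nonneg (by positivity) (hb i)
    by_cases hj : j ≤ i ∧ Nrb j i y
    · rw [if_pos hj]
      by_cases hL : i < j + L
      · rw [if_pos ⟨hj.1, hL⟩]
        split_ifs <;> linarith
      · rw [if_neg fun h => hL h.2, if_pos ⟨by omega, hj.2⟩, zero_add]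
    · rw [if_neg hj]
      split_ifs <;> linarith
  refine h1.trans (add_le_add ?_ le_rfl)
  rw [sum_comm, mul_sum]
  refine sum_le_sum fun i hi => ?_
  rw [mem_range] at hi
  have h2 : ∑ j ∈ range (n + 1), (if j ≤ i ∧ i < j + L then
      8 * ((i + 1 - j : ℕ) : ℝ) ^ 2 * b i else 0) ≤
      8 * b i * ∑ j ∈ range (i + 1), (if i < j + L then ((i + 1 - j : ℕ) : ℝ) ^ 2 else 0) := by
    rw [mul_sum]
    have hsub : range (i + 1) ⊆ range (n + 1) := range_subset_range.2 (by omega)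
    rw [← sum_subset hsub]
    · refine le_of_eq (sum_congr rfl fun j hj => ?_)
      rw [mem_range] at hj
      by_cases hL : i < j + L
      · rw [if_pos ⟨by omega, hL⟩, if_pos hL]
        ring
      · rw [if_neg fun h => hL h.2, if_neg hL, mul_zero]
    · intro j _ hj
      rw [mem_range, not_lt] at hj
      exact if_neg fun h => by omega
  refine h2.trans ?_
  have h3 := mul_le_mul_of_nonneg_left (sum_cube L i) (by linarith [hb i] : 0 ≤ 8 * b i)
  linarith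

/-! ### Hilbert-Schmidt norms -/

variable [DecidableEq ι]

/-- squared Hilbert-Schmidt norm of the slot -/
def HsR (Mx : ℕ → ℤ → Matrix ι ι ℝ) (o x1 : ℤ) (s : ℕ → ℤ → ℤ → ℝ) (n j : ℕ) (x0 p : ℤ) : ℝ :=
  ∑ a : ι, nsq (Rm Mx o x1 s n j x0 p *ᵥ Pi.single a 1)

/-- energy of a layer over the window, Hilbert-Schmidt norms -/
def EH (Mx : ℕ → ℤ → Matrix ι ι ℝ) (n : ℕ) (T x1 M3 : ℤ) (i : ℕ) : ℝ :=
  ∑ a : ι, En Mx n T x1 M3 i (Pi.single a 1)

theorem EH_nonneg (M3 : ℤ) (i : ℕ) : 0 ≤ EH Mx n T x1 M3 i :=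
  sum_nonneg fun _ _ => En_nonneg _ _

/-- squared Hilbert-Schmidt norm of the difference -/
def HsD (Mx : ℕ → ℤ → Matrix ι ι ℝ) (o x1 : ℤ) (s : ℕ → ℤ → ℤ → ℝ) (n j : ℕ) (x0 p y : ℤ) : ℝ :=
  ∑ a : ι, nsq (Rm Mx o x1 s n j x0 p *ᵥ Pi.single a 1 - Rm Mx o x1 s n j x0 y *ᵥ Pi.single a 1)

theorem HsD_nonneg (j : ℕ) (x0 p y : ℤ) : 0 ≤ HsD Mx o x1 s n j x0 p y :=
  sum_nonneg fun _ _ => nsq_nonneg _

theorem HsR_le (j : ℕ) (x0 p y : ℤ) :
    HsR Mx o x1 s n j x0 p ≤ 2 * HsR Mx o x1 s n j x0 y + 2 * HsD Mx o x1 s n j x0 p y := by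
  unfold HsR HsD
  rw [mul_sum, mul_sum, ← sum_add_distrib]
  refine sum_le_sum fun a _ => ?_
  have h := nsq_add_le (Rm Mx o x1 s n j x0 y *ᵥ Pi.single a 1)
    (Rm Mx o x1 s n j x0 p *ᵥ Pi.single a 1 - Rm Mx o x1 s n j x0 y *ᵥ Pi.single a 1)
  rwa [add_sub_cancel] at h

/-- **The differences at the distance `2 ^ j`**, all scales, both sides, all `x₀`. -/
theorem dif_sum (hs1 : ∀ k a b, |s k a b| ≤ 1) (ho : o = 1 ∨ o = -1) (L : ℕ) (y : ℤ) :
    ∑ j ∈ range (n + 1), ∑ x0 ∈ iv n T, (HsD Mx o x1 s n j x0 (y + 2 ^ j) y +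
      HsD Mx o x1 s n j x0 (y - 2 ^ j) y) ≤
      2 * (8 * (L : ℝ) ^ 3 * ∑ i ∈ range n, EH Mx n T x1 (ix n y) (i + 1) +
        far n L (fun i => EH Mx n T x1 (ix n y) (i + 1)) y) := by
  have h := near_far n L (b := fun i => EH Mx n T x1 (ix n y) (i + 1)) (fun i => EH_nonneg _ _) y
  refine le_trans ?_ (mul_le_mul_of_nonneg_left h (by norm_num : (0 : ℝ) ≤ 2))
  rw [mul_sum]
  refine sum_le_sum fun j hj => ?_
  have hjn : j ≤ n := by
    rw [mem_range] at hj
    omega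
  have hp : (0 : ℤ) < 2 ^ j := by positivity
  have one : ∀ p : ℤ, y - 2 ^ j ≤ p → p ≤ y + 2 ^ j →
      ∑ x0 ∈ iv n T, HsD Mx o x1 s n j x0 p y ≤ ∑ i ∈ range n, (if j ≤ i ∧ Nrb j i y then
        8 * ((i + 1 - j : ℕ) : ℝ) ^ 2 * EH Mx n T x1 (ix n y) (i + 1) else 0) := by
    intro p h1 h2
    unfold HsD EH
    rw [sum_comm]
    refine (sum_le_sum fun a _ => dif_x0 hs1 ho hjn h1 h2 (Pi.single a 1)).trans (le_of_eq ?_)
    rw [sum_comm]
    refine sum_congr rfl fun i _ => ?_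
    split_ifs
    · rw [mul_sum]
    · exact sum_const_zero
  rw [sum_add_distrib]
  have a1 := one (y + 2 ^ j) (by linarith) le_rfl
  have a2 := one (y - 2 ^ j) le_rfl (by linarith)
  linarith

/-- the layers as a martingale of `x₀` with values in the matrices -/
theorem HsR_mar (j : ℕ) (x0 y : ℤ) :
    HsR Mx o x1 s n j x0 y = nsq (mar (fun i q => fun ab : ι × ι =>
      ((hs i y * s i q (ix i y)) • (Mx i (o - 2 - ix i x1 - ix i y - q) *ᵥ Pi.single ab.1 1)) ab.2)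
      n j x0) := by
  unfold HsR
  rw [H841.nsq_eq, Fintype.sum_prod_type]
  refine sum_congr rfl fun a _ => ?_
  rw [H841.nsq_eq]
  refine sum_congr rfl fun b _ => ?_
  congr 1
  rw [Rm_vec]
  unfold StopNum.mar
  rw [Finset.sum_apply, Finset.sum_apply]
  refine sum_congr rfl fun i _ => ?_
  unfold H841.gl
  simp only [Pi.smul_apply, smul_eq_mul]
  ring

/-- **The large values at the point `y`.** -/
theorem prob_y (hs1 : ∀ k a b, |s k a b| ≤ 1) (ho : o = 1 ∨ o = -1) (y : ℤ) {c : ℝ}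
    (hc : 0 < c) :
    (((iv n T).filter fun x0 => ∃ j, j ≤ n ∧ c ≤ HsR Mx o x1 s n j x0 y).card : ℝ) * c ≤
      ∑ i ∈ range n, EH Mx n T x1 (ix n y) (i + 1) := by
  simp only [HsR_mar]
  refine (mar_large _ n T hc).trans ?_
  refine sum_le_sum fun i hi => ?_
  have hin : i + 1 ≤ n := Nat.succ_le_of_lt (mem_range.1 hi)
  have e : ∀ x ∈ iv n T, nsq (fun ab : ι × ι => ((hs (i + 1) y *
      s (i + 1) (ix (i + 1) x) (ix (i + 1) y)) • (Mx (i + 1) (o - 2 - ix (i + 1) x1 -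
        ix (i + 1) y - ix (i + 1) x) *ᵥ Pi.single ab.1 1)) ab.2) ≤
      ∑ a : ι, Nn Mx o x1 (i + 1) x y (Pi.single a 1) := by
    intro x _
    rw [H841.nsq_eq, Fintype.sum_prod_type]
    refine sum_le_sum fun a _ => ?_
    rw [← H841.nsq_eq (fun b => ((hs (i + 1) y * s (i + 1) (ix (i + 1) x) (ix (i + 1) y)) •
      (Mx (i + 1) (o - 2 - ix (i + 1) x1 - ix (i + 1) y - ix (i + 1) x) *ᵥ Pi.single a 1)) b)]
    unfold H841.Nn H922.ck
    have e2 : nsq (fun b => ((hs (i + 1) y * s (i + 1) (ix (i + 1) x) (ix (i + 1) y)) •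
      (Mx (i + 1) (o - 2 - ix (i + 1) x1 - ix (i + 1) y - ix (i + 1) x) *ᵥ Pi.single a 1)) b) =
      nsq ((hs (i + 1) y * s (i + 1) (ix (i + 1) x) (ix (i + 1) y)) •
      (Mx (i + 1) (o - 2 - ix (i + 1) x1 - ix (i + 1) y - ix (i + 1) x) *ᵥ Pi.single a 1)) := rfl
    rw [e2, nsq_smul, mul_pow, sq (hs (i + 1) y), PL.hs_mul_self, one_mul]
    have h4 : s (i + 1) (ix (i + 1) x) (ix (i + 1) y) ^ 2 ≤ 1 := by
      rw [← sq_abs]
      exact pow_le_one₀ (abs_nonneg _) (hs1 _ _ _)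
    calc _ ≤ 1 * _ := mul_le_mul_of_nonneg_right h4 (nsq_nonneg _)
      _ = _ := one_mul _
  refine (sum_le_sum e).trans ?_
  rw [sum_comm]
  unfold EH
  refine sum_le_sum fun a _ => ?_
  have hp : (0 : ℤ) < 2 ^ n := by positivity
  exact Nn_sum ho hin le_rfl (by linarith) (by linarith) _

/-- **[G1]** the slot is large at some scale `j` at one of the points `y`, `y ± 2 ^ j`. -/
theorem prob_nb (hs1 : ∀ k a b, |s k a b| ≤ 1) (ho : o = 1 ∨ o = -1) (L : ℕ) (y : ℤ) {κ : ℝ}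
    (hκ : 0 < κ) :
    (((iv n T).filter fun x0 => ∃ j, j ≤ n ∧ ∃ p, (p = y ∨ p = y + 2 ^ j ∨ p = y - 2 ^ j) ∧
      κ ^ 2 ≤ 4 * HsR Mx o x1 s n j x0 p).card : ℝ) * κ ^ 2 ≤
      (16 + 256 * (L : ℝ) ^ 3) * ∑ i ∈ range n, EH Mx n T x1 (ix n y) (i + 1) +
        32 * far n L (fun i => EH Mx n T x1 (ix n y) (i + 1)) y := by
  have hκ2 : 0 < κ ^ 2 := by positivity
  set A := (iv n T).filter fun x0 => ∃ j, j ≤ n ∧ κ ^ 2 / 16 ≤ HsR Mx o x1 s n j x0 y with hA
  set D : ℤ → ℝ := fun x0 => ∑ j ∈ range (n + 1), (HsD Mx o x1 s n j x0 (y + 2 ^ j) y +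
      HsD Mx o x1 s n j x0 (y - 2 ^ j) y) with hD
  have hD0 : ∀ x0, 0 ≤ D x0 := fun x0 => sum_nonneg fun j _ =>
    add_nonneg (HsD_nonneg _ _ _ _) (HsD_nonneg _ _ _ _)
  set F := (iv n T).filter fun x0 => ∃ j, j ≤ n ∧ ∃ p, (p = y ∨ p = y + 2 ^ j ∨ p = y - 2 ^ j) ∧
      κ ^ 2 ≤ 4 * HsR Mx o x1 s n j x0 p with hF
  have hpt : ∀ x0 ∈ iv n T, (if x0 ∈ F then κ ^ 2 else 0) ≤
      (if x0 ∈ A then κ ^ 2 else 0) + 16 * D x0 := by
    intro x0 hx0
    by_cases h1 : x0 ∈ F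
    · rw [if_pos h1]
      by_cases h2 : x0 ∈ A
      · rw [if_pos h2]
        linarith [hD0 x0]
      · rw [if_neg h2, zero_add]
        rw [hF, mem_filter] at h1
        obtain ⟨_, j, hj, p, hp, hbig⟩ := h1
        have h3 : HsR Mx o x1 s n j x0 y < κ ^ 2 / 16 := by
          by_contra hcon
          refine h2 ?_
          rw [hA, mem_filter]
          exact ⟨hx0, j, hj, not_lt.1 hcon⟩
        have h4 := HsR_le (Mx := Mx) (o := o) (x1 := x1) (s := s) (n := n) j x0 p y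
        have h5 : HsD Mx o x1 s n j x0 p y ≤ D x0 := by
          have hterm : HsD Mx o x1 s n j x0 p y ≤ HsD Mx o x1 s n j x0 (y + 2 ^ j) y +
              HsD Mx o x1 s n j x0 (y - 2 ^ j) y := by
            rcases hp with rfl | rfl | rfl
            · have : HsD Mx o x1 s n j x0 p p = 0 := by
                unfold HsD
                refine sum_eq_zero fun a _ => ?_
                rw [sub_self, H841.nsq_zero]
              rw [this]
              exact add_nonneg (HsD_nonneg _ _ _ _) (HsD_nonneg _ _ _ _)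
            · linarith [HsD_nonneg (Mx := Mx) (o := o) (x1 := x1) (s := s) (n := n) j x0
                (y - 2 ^ j) y]
            · linarith [HsD_nonneg (Mx := Mx) (o := o) (x1 := x1) (s := s) (n := n) j x0
                (y + 2 ^ j) y]
          refine hterm.trans ?_
          rw [hD]
          exact single_le_sum (f := fun j => HsD Mx o x1 s n j x0 (y + 2 ^ j) y +
            HsD Mx o x1 s n j x0 (y - 2 ^ j) y) (fun j _ =>
              add_nonneg (HsD_nonneg _ _ _ _) (HsD_nonneg _ _ _ _)) (mem_range.2 (by omega))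
        linarith
    · rw [if_neg h1]
      have := hD0 x0
      split_ifs <;> linarith
  have h6 := sum_le_sum hpt
  rw [sum_add_distrib, ← mul_sum] at h6
  have cF : ∑ x0 ∈ iv n T, (if x0 ∈ F then κ ^ 2 else 0) = (F.card : ℝ) * κ ^ 2 := by
    rw [← sum_filter, sum_const, nsmul_eq_mul]
    congr 2
    exact congrArg card (filter_mem_eq_inter.trans (inter_eq_right.2 (filter_subset _ _)))
  have cA : ∑ x0 ∈ iv n T, (if x0 ∈ A then κ ^ 2 else 0) = (A.card : ℝ) * κ ^ 2 := by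
    rw [← sum_filter, sum_const, nsmul_eq_mul]
    congr 2
    exact congrArg card (filter_mem_eq_inter.trans (inter_eq_right.2 (filter_subset _ _)))
  rw [cF, cA] at h6
  have h7 := prob_y (Mx := Mx) (x1 := x1) (T := T) (n := n) (s := s) hs1 ho y
    (by positivity : 0 < κ ^ 2 / 16)
  rw [← hA] at h7
  have h8 := dif_sum (Mx := Mx) (x1 := x1) (T := T) (n := n) (s := s) hs1 ho L y
  rw [sum_comm] at h8
  have e8 : ∑ x0 ∈ iv n T, D x0 = ∑ x0 ∈ iv n T, ∑ j ∈ range (n + 1),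
      (HsD Mx o x1 s n j x0 (y + 2 ^ j) y + HsD Mx o x1 s n j x0 (y - 2 ^ j) y) := rfl
  rw [e8] at h6
  have e9 : (A.card : ℝ) * κ ^ 2 = 16 * ((A.card : ℝ) * (κ ^ 2 / 16)) := by ring
  rw [e9] at h6
  nlinarith [h6, h7, h8]

/-! ### The neighbours without the far layers -/

omit [Fintype ι] [DecidableEq ι] in
theorem ix_mono {i j : ℕ} (h : j ≤ i) {p y : ℤ} (e : ix j p = ix j y) : ix i p = ix i y := by
  have h1 : ∀ z : ℤ, ix i z = ix (i - j) (ix j z) := fun z => by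
    rw [ix_ix, Nat.add_sub_cancel' h]
  rw [h1, h1, e]

theorem ix_shift (i : ℕ) (y c : ℤ) : ix i (y + c * 2 ^ i) = ix i y + c := by
  obtain ⟨b1, b2⟩ := ix_bd i y
  refine ix_of ?_ ?_
  · rw [mul_add, mul_comm (2 ^ i) c]
    linarith
  · rw [mul_add, mul_comm (2 ^ i) c]
    linarith

/-- a point at distance `2 ^ j` is in the cell of `y` or in the neighbour of it -/
theorem ix_nb {i j : ℕ} (h : j ≤ i) {c : ℤ} (hc : c = 1 ∨ c = -1) (y : ℤ) :
    ix i (y + c * 2 ^ j) = ix i y ∨ ix i (y + c * 2 ^ j) = ix i (y + c * 2 ^ i) := by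
  obtain ⟨b1, b2⟩ := ix_bd i y
  have hle : (2 : ℤ) ^ j ≤ 2 ^ i := pow_le_pow_right₀ (by norm_num) h
  have hp : (0 : ℤ) < 2 ^ j := by positivity
  rw [ix_shift i y c]
  rcases hc with rfl | rfl
  · by_cases h2 : y + 2 ^ j < 2 ^ i * ix i y + 2 ^ i
    · left
      exact ix_of (by linarith) (by linarith)
    · right
      exact ix_of (by linarith) (by linarith)
  · by_cases h2 : 2 ^ i * ix i y ≤ y - 2 ^ j
    · left
      exact ix_of (by linarith) (by linarith)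
    · right
      exact ix_of (by linarith) (by linarith)

/-- the scale from which on `y` and its neighbour lie in one cell -/
theorem exists_tau {j n : ℕ} (hj : j ≤ n) {c : ℤ} (hc : c = 1 ∨ c = -1) (y : ℤ) :
    ∃ τ, j ≤ τ ∧ τ ≤ n ∧ (∀ i, j ≤ i → i < τ → ix i (y + c * 2 ^ j) = ix i (y + c * 2 ^ i)) ∧
      ∀ i, τ ≤ i → i < n → ix i (y + c * 2 ^ j) = ix i y := by
  by_cases h : ∃ i, j ≤ i ∧ i < n ∧ ix i (y + c * 2 ^ j) = ix i y
  · refine ⟨Nat.find h, (Nat.find_spec h).1, (Nat.find_spec h).2.1.le, ?_, ?_⟩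
    · intro i h1 h2
      have h3 := Nat.find_min h h2
      rcases ix_nb h1 hc y with h4 | h4
      · exact absurd ⟨h1, h2.trans (Nat.find_spec h).2.1, h4⟩ h3
      · exact h4
    · intro i h1 _
      exact ix_mono h1 (Nat.find_spec h).2.2
  · refine ⟨n, hj, le_rfl, ?_, fun i h1 h2 => absurd h2 (not_lt.2 h1)⟩
    intro i h1 h2
    rcases ix_nb h1 hc y with h4 | h4
    · exact absurd ⟨i, h1, h2, h4⟩ h
    · exact h4

/-- the layers of the differences as functions of the cell of `x₀` -/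
def gD (Mx : ℕ → ℤ → Matrix ι ι ℝ) (o x1 : ℤ) (s : ℕ → ℤ → ℤ → ℝ) (y c : ℤ) (i : ℕ) (q : ℤ)
    (ab : ι × ι) : ℝ :=
  ((hs i (y + c * 2 ^ (i - 1)) * s i q (ix i (y + c * 2 ^ (i - 1)))) •
      (Mx i (o - 2 - ix i x1 - ix i (y + c * 2 ^ (i - 1)) - q) *ᵥ Pi.single ab.1 1)) ab.2 -
    ((hs i y * s i q (ix i y)) • (Mx i (o - 2 - ix i x1 - ix i y - q) *ᵥ Pi.single ab.1 1)) ab.2

/-- **The difference to a neighbour is a difference of two times of one martingale.** -/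
theorem HsD_mar {j : ℕ} (hj : j ≤ n) {c : ℤ} (hc : c = 1 ∨ c = -1) (y : ℤ) :
    ∃ τ, τ ≤ n ∧ ∀ x0, HsD Mx o x1 s n j x0 (y + c * 2 ^ j) y =
      nsq (mar (gD Mx o x1 s y c) n j x0 - mar (gD Mx o x1 s y c) n τ x0) := by
  obtain ⟨τ, h1, h2, h3, h4⟩ := exists_tau hj hc y
  refine ⟨τ, h2, fun x0 => ?_⟩
  have e0 : mar (gD Mx o x1 s y c) n j x0 - mar (gD Mx o x1 s y c) n τ x0 =
      ∑ i ∈ Ico j τ, hs (i + 1) x0 • gD Mx o x1 s y c (i + 1) (ix (i + 1) x0) := by
    unfold StopNum.mar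
    rw [← sum_Ico_consecutive _ h1 h2, add_sub_cancel_right]
  rw [e0]
  unfold HsD
  rw [H841.nsq_eq, Fintype.sum_prod_type]
  refine sum_congr rfl fun a _ => ?_
  rw [H841.nsq_eq]
  refine sum_congr rfl fun b _ => ?_
  congr 1
  rw [Rm_vec, Rm_vec, ← sum_sub_distrib, ← sum_Ico_consecutive _ h1 h2]
  have z : ∑ i ∈ Ico τ n, (hs (i + 1) (y + c * 2 ^ j) •
      gl Mx o x1 s (i + 1) x0 (Pi.single a 1) (ix (i + 1) (y + c * 2 ^ j)) -
      hs (i + 1) y • gl Mx o x1 s (i + 1) x0 (Pi.single a 1) (ix (i + 1) y)) = 0 := by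
    refine sum_eq_zero fun i hi => ?_
    rw [mem_Ico] at hi
    rw [lay_val i x0 _ (h4 i hi.1 hi.2), sub_self]
  rw [z, add_zero, Finset.sum_apply, Finset.sum_apply]
  refine sum_congr rfl fun i hi => ?_
  rw [mem_Ico] at hi
  rw [lay_val i x0 _ (h3 i hi.1 hi.2)]
  unfold gD H841.gl
  rw [Nat.add_sub_cancel]
  simp only [Pi.smul_apply, Pi.sub_apply, smul_eq_mul]
  ring

/-- the energy of the layers of the differences -/
theorem gD_sum (hs1 : ∀ k a b, |s k a b| ≤ 1) (ho : o = 1 ∨ o = -1) {c : ℤ}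
    (hc : c = 1 ∨ c = -1) (y : ℤ) :
    ∑ i ∈ range n, ∑ x ∈ iv n T, nsq (gD Mx o x1 s y c (i + 1) (ix (i + 1) x)) ≤
      4 * ∑ i ∈ range n, EH Mx n T x1 (ix n y) (i + 1) := by
  rw [mul_sum]
  refine sum_le_sum fun i hi => ?_
  have hin : i + 1 ≤ n := Nat.succ_le_of_lt (mem_range.1 hi)
  have hp : (0 : ℤ) < 2 ^ i := by positivity
  set p := y + c * 2 ^ i with hpd
  have hp1 : y - 2 ^ i ≤ p := by
    rcases hc with h | h <;> rw [hpd, h] <;> linarith
  have hp2 : p ≤ y + 2 ^ i := by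
    rcases hc with h | h <;> rw [hpd, h] <;> linarith
  have one : ∀ (z : ℤ) (x : ℤ) (a : ι), nsq ((hs (i + 1) z *
      s (i + 1) (ix (i + 1) x) (ix (i + 1) z)) • (Mx (i + 1) (o - 2 - ix (i + 1) x1 -
        ix (i + 1) z - ix (i + 1) x) *ᵥ Pi.single a 1)) ≤
      Nn Mx o x1 (i + 1) x z (Pi.single a 1) := by
    intro z x a
    unfold H841.Nn H922.ck
    rw [nsq_smul, mul_pow, sq (hs (i + 1) z), PL.hs_mul_self, one_mul]
    have h4 : s (i + 1) (ix (i + 1) x) (ix (i + 1) z) ^ 2 ≤ 1 := by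
      rw [← sq_abs]
      exact pow_le_one₀ (abs_nonneg _) (hs1 _ _ _)
    calc _ ≤ 1 * _ := mul_le_mul_of_nonneg_right h4 (nsq_nonneg _)
      _ = _ := one_mul _
  have e : ∀ x ∈ iv n T, nsq (gD Mx o x1 s y c (i + 1) (ix (i + 1) x)) ≤
      ∑ a : ι, 2 * (Nn Mx o x1 (i + 1) x p (Pi.single a 1) +
        Nn Mx o x1 (i + 1) x y (Pi.single a 1)) := by
    intro x _
    rw [H841.nsq_eq, Fintype.sum_prod_type]
    refine sum_le_sum fun a _ => ?_
    have e1 : ∑ b : ι, gD Mx o x1 s y c (i + 1) (ix (i + 1) x) (a, b) ^ 2 =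
        nsq (((hs (i + 1) p * s (i + 1) (ix (i + 1) x) (ix (i + 1) p)) • (Mx (i + 1)
          (o - 2 - ix (i + 1) x1 - ix (i + 1) p - ix (i + 1) x) *ᵥ Pi.single a 1)) -
          ((hs (i + 1) y * s (i + 1) (ix (i + 1) x) (ix (i + 1) y)) • (Mx (i + 1)
          (o - 2 - ix (i + 1) x1 - ix (i + 1) y - ix (i + 1) x) *ᵥ Pi.single a 1))) := by
      rw [H841.nsq_eq]
      refine sum_congr rfl fun b _ => ?_
      rw [hpd]
      rfl
    rw [e1]
    refine (nsq_sub_le _ _).trans ?_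
    have h5 := one p x a
    have h6 := one y x a
    linarith
  refine (sum_le_sum e).trans ?_
  rw [sum_comm]
  unfold EH
  rw [mul_sum]
  refine sum_le_sum fun a _ => ?_
  rw [← mul_sum, sum_add_distrib]
  have a1 := Nn_sum (Mx := Mx) (x1 := x1) (T := T) ho hin (by omega : i ≤ n) hp1 hp2
    (Pi.single a (1 : ℝ))
  have a2 := Nn_sum (Mx := Mx) (x1 := x1) (T := T) ho hin (by omega : i ≤ n) (p := y) (y := y)
    (by linarith) (by linarith) (Pi.single a (1 : ℝ))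
  linarith

/-- **The large differences to one neighbour.** -/
theorem prob_D (hs1 : ∀ k a b, |s k a b| ≤ 1) (ho : o = 1 ∨ o = -1) {c : ℤ}
    (hc : c = 1 ∨ c = -1) (y : ℤ) {r : ℝ} (hr : 0 < r) :
    (((iv n T).filter fun x0 => ∃ j, j ≤ n ∧
      r ≤ HsD Mx o x1 s n j x0 (y + c * 2 ^ j) y).card : ℝ) * r ≤
      16 * ∑ i ∈ range n, EH Mx n T x1 (ix n y) (i + 1) := by
  have h := mar_large (gD Mx o x1 s y c) n T (by positivity : 0 < r / 4)
  have h2 := gD_sum (Mx := Mx) (o := o) (x1 := x1) (T := T) (s := s) (n := n) hs1 ho hc y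
  have hsub : ((iv n T).filter fun x0 => ∃ j, j ≤ n ∧
      r ≤ HsD Mx o x1 s n j x0 (y + c * 2 ^ j) y) ⊆
      (iv n T).filter fun x => ∃ j, j ≤ n ∧ r / 4 ≤ nsq (mar (gD Mx o x1 s y c) n j x) := by
    intro x0 hx
    rw [mem_filter] at hx ⊢
    obtain ⟨hx0, j, hj, hbig⟩ := hx
    refine ⟨hx0, ?_⟩
    obtain ⟨τ, hτ, hD⟩ := HsD_mar (Mx := Mx) (o := o) (x1 := x1) (s := s) (n := n) hj hc y
    rw [hD x0] at hbig
    by_contra hcon
    have c1 : nsq (mar (gD Mx o x1 s y c) n j x0) < r / 4 := by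
      by_contra h3
      exact hcon ⟨j, hj, not_lt.1 h3⟩
    have c2 : nsq (mar (gD Mx o x1 s y c) n τ x0) < r / 4 := by
      by_contra h3
      exact hcon ⟨τ, hτ, not_lt.1 h3⟩
    have h4 := nsq_sub_le (mar (gD Mx o x1 s y c) n j x0) (mar (gD Mx o x1 s y c) n τ x0)
    linarith
  have h3 : (((iv n T).filter fun x0 => ∃ j, j ≤ n ∧
      r ≤ HsD Mx o x1 s n j x0 (y + c * 2 ^ j) y).card : ℝ) ≤
      (((iv n T).filter fun x => ∃ j, j ≤ n ∧
        r / 4 ≤ nsq (mar (gD Mx o x1 s y c) n j x)).card : ℝ) := by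
    exact_mod_cast card_le_card hsub
  have h4 := mul_le_mul_of_nonneg_right h3 hr.le
  linarith

/-- the slot at the time `j` depends only on the cell of scale `j` of the point -/
theorem HsR_ix {j : ℕ} (x0 : ℤ) {p q : ℤ} (h : ix j p = ix j q) :
    HsR Mx o x1 s n j x0 p = HsR Mx o x1 s n j x0 q := by
  unfold HsR
  refine sum_congr rfl fun a _ => ?_
  congr 1
  rw [Rm_vec, Rm_vec]
  refine sum_congr rfl fun i hi => ?_
  exact lay_val i x0 _ (ix_mono (mem_Ico.1 hi).1 h)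

/-- **[G1], sharp form**: the slot is large at some scale `j` at a point at distance at most one
cell of scale `j`; no far layers, no loss. -/
theorem prob_nbS (hs1 : ∀ k a b, |s k a b| ≤ 1) (ho : o = 1 ∨ o = -1) (y : ℤ) {κ : ℝ}
    (hκ : 0 < κ) :
    (((iv n T).filter fun x0 => ∃ j, j ≤ n ∧ ∃ p, |ix j p - ix j y| ≤ 1 ∧
      κ ^ 2 ≤ 4 * HsR Mx o x1 s n j x0 p).card : ℝ) * κ ^ 2 ≤
      528 * ∑ i ∈ range n, EH Mx n T x1 (ix n y) (i + 1) := by
  have hκ2 : 0 < κ ^ 2 := by positivity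
  have hr : 0 < κ ^ 2 / 16 := by positivity
  set A := (iv n T).filter fun x0 => ∃ j, j ≤ n ∧ κ ^ 2 / 16 ≤ HsR Mx o x1 s n j x0 y with hA
  set B := (iv n T).filter fun x0 => ∃ j, j ≤ n ∧
    κ ^ 2 / 16 ≤ HsD Mx o x1 s n j x0 (y + 1 * 2 ^ j) y with hB
  set C := (iv n T).filter fun x0 => ∃ j, j ≤ n ∧
    κ ^ 2 / 16 ≤ HsD Mx o x1 s n j x0 (y + -1 * 2 ^ j) y with hC
  have hsub : ((iv n T).filter fun x0 => ∃ j, j ≤ n ∧ ∃ p, |ix j p - ix j y| ≤ 1 ∧
      κ ^ 2 ≤ 4 * HsR Mx o x1 s n j x0 p) ⊆ A ∪ (B ∪ C) := by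
    intro x0 hx
    rw [mem_filter] at hx
    obtain ⟨hx0, j, hj, p, hp, hbig⟩ := hx
    rw [mem_union, mem_union]
    by_contra hcon
    rw [not_or, not_or] at hcon
    obtain ⟨k1, k2, k3⟩ := hcon
    have c1 : HsR Mx o x1 s n j x0 y < κ ^ 2 / 16 := by
      by_contra h
      exact k1 (by rw [hA, mem_filter]; exact ⟨hx0, j, hj, not_lt.1 h⟩)
    have c2 : HsD Mx o x1 s n j x0 (y + 1 * 2 ^ j) y < κ ^ 2 / 16 := by
      by_contra h
      exact k2 (by rw [hB, mem_filter]; exact ⟨hx0, j, hj, not_lt.1 h⟩)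
    have c3 : HsD Mx o x1 s n j x0 (y + -1 * 2 ^ j) y < κ ^ 2 / 16 := by
      by_contra h
      exact k3 (by rw [hC, mem_filter]; exact ⟨hx0, j, hj, not_lt.1 h⟩)
    rw [abs_le] at hp
    have hcase : ix j p = ix j y ∨ ix j p = ix j (y + 1 * 2 ^ j) ∨
        ix j p = ix j (y + -1 * 2 ^ j) := by
      rw [ix_shift, ix_shift]
      omega
    rcases hcase with h | h | h
    · rw [HsR_ix x0 h] at hbig
      linarith
    · rw [HsR_ix x0 h] at hbig
      have h4 := HsR_le (Mx := Mx) (o := o) (x1 := x1) (s := s) (n := n) j x0 (y + 1 * 2 ^ j) y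
      linarith
    · rw [HsR_ix x0 h] at hbig
      have h4 := HsR_le (Mx := Mx) (o := o) (x1 := x1) (s := s) (n := n) j x0 (y + -1 * 2 ^ j) y
      linarith
  have hcard : (((iv n T).filter fun x0 => ∃ j, j ≤ n ∧ ∃ p, |ix j p - ix j y| ≤ 1 ∧
      κ ^ 2 ≤ 4 * HsR Mx o x1 s n j x0 p).card : ℝ) ≤ (A.card : ℝ) + (B.card + C.card) := by
    have h1 := card_le_card hsub
    have h2 := card_union_le A (B ∪ C)
    have h3 := card_union_le B C
    have h4 := h1.trans (h2.trans (Nat.add_le_add_left h3 _))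
    exact_mod_cast h4
  have a1 := prob_y (Mx := Mx) (x1 := x1) (T := T) (n := n) (s := s) hs1 ho y hr
  have a2 := prob_D (Mx := Mx) (x1 := x1) (T := T) (n := n) (s := s) hs1 ho (c := 1)
    (Or.inl rfl) y hr
  have a3 := prob_D (Mx := Mx) (x1 := x1) (T := T) (n := n) (s := s) hs1 ho (c := -1)
    (Or.inr rfl) y hr
  rw [← hA] at a1
  rw [← hB] at a2
  rw [← hC] at a3
  have h5 := mul_le_mul_of_nonneg_right hcard hκ2.le
  linarith

end

end Vale.Agent.P141.H565.ProbNb
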