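import Vale.Agent.P141.H876.WinS

/-!
# P141, line (A), [F17], (X2): the moving slot at the affected cells, counted

Letters of `H841.Lay` and `H876.WinS`, one point `(x1, y)`, one vector `w`.

* `cnt` : the number of the affected scales at and above `k` of a cell;
* `mar` : a martingale of `x₀` built from layers; `mar_stop` : the squares at the affected cells
  whose count is at most `lam` cost `lam` times the squares of the layers;
* `stop_num` : the same for the slot `Rm *ᵥ w` with weights.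
-/

namespace Vale.Agent.P141.H565.StopNum

open Finset Matrix
open Vale.Agent.P141.PL (iv ix hs mem_iv ix_ix card_iv)
open Vale.Agent.P141.H922 (ck iv_iv)
open Vale.Agent.P141.H43 (nsq nsq_nonneg sum_iv_half)
open Vale.Agent.P141.H841 (Rm Rm_vec gl Nn)
open Vale.Agent.P141.H876 (En wt_Nn wn)

noncomputable section

open scoped Classical

variable {ι : Type*} [Fintype ι]

/-- the number of the affected scales at and above `k` of the cell `q` of scale `k` -/
def cnt (a : ℕ → ℤ → Prop) (n k : ℕ) (q : ℤ) : ℕ :=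
  ((Ico k n).filter fun l => a l (ix (l - k) q)).card

theorem cnt_step (a : ℕ → ℤ → Prop) {n k : ℕ} (hk : k < n) (x : ℤ) :
    cnt a n k (ix k x) = (if a k (ix k x) then 1 else 0) + cnt a n (k + 1) (ix (k + 1) x) := by
  unfold cnt
  have e : Ico k n = insert k (Ico (k + 1) n) := (insert_Ico_add_one_left_eq_Ico hk).symm
  have e2 : ∀ l ∈ Ico (k + 1) n, (a l (ix (l - k) (ix k x)) ↔
      a l (ix (l - (k + 1)) (ix (k + 1) x))) := by
    intro l hl
    rw [mem_Ico] at hl
    rw [ix_ix, ix_ix, show k + (l - k) = l by omega, show k + 1 + (l - (k + 1)) = l by omega]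
  have e3 : ((Ico (k + 1) n).filter fun l => a l (ix (l - k) (ix k x))) =
      (Ico (k + 1) n).filter fun l => a l (ix (l - (k + 1)) (ix (k + 1) x)) :=
    filter_congr e2
  have e4 : ix (k - k) (ix k x) = ix k x := by rw [ix_ix, show k + (k - k) = k by omega]
  rw [e, filter_insert, e4]
  split_ifs with h
  · rw [card_insert_of_notMem (by simp), e3, add_comm]
  · rw [e3, zero_add]

/-- the sum of the Haar sign over a cell -/
theorem hs_cell (k : ℕ) (q : ℤ) : ∑ x ∈ iv (k + 1) q, hs (k + 1) x = 0 := by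
  rw [sum_iv_half]
  have e1 : ∑ x ∈ iv k (2 * q), hs (k + 1) x = 2 ^ k := by
    rw [sum_congr rfl fun x hx => ?_, sum_const, card_iv, nsmul_eq_mul, mul_one]
    · push_cast; rfl
    · rw [mem_iv] at hx
      unfold PL.hs
      rw [Nat.add_sub_cancel, hx, if_pos (by omega)]
  have e2 : ∑ x ∈ iv k (2 * q + 1), hs (k + 1) x = -2 ^ k := by
    rw [sum_congr rfl fun x hx => ?_, sum_const, card_iv, nsmul_eq_mul]
    · push_cast
      rw [mul_neg_one]
    · rw [mem_iv] at hx
      unfold PL.hs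
      rw [Nat.add_sub_cancel, hx, if_neg (by omega)]
  rw [e1, e2]
  ring

/-- the martingale built from the layers `g` -/
def mar (g : ℕ → ℤ → ι → ℝ) (n k : ℕ) (x : ℤ) : ι → ℝ :=
  ∑ i ∈ Ico k n, hs (i + 1) x • g (i + 1) (ix (i + 1) x)

omit [Fintype ι] in
theorem mar_step (g : ℕ → ℤ → ι → ℝ) {n k : ℕ} (hk : k < n) (x : ℤ) :
    mar g n k x = mar g n (k + 1) x + hs (k + 1) x • g (k + 1) (ix (k + 1) x) := by
  unfold mar
  rw [sum_eq_sum_Ico_succ_bot hk, add_comm]

omit [Fintype ι] in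
theorem mar_ix (g : ℕ → ℤ → ι → ℝ) (n : ℕ) {k : ℕ} {x x' : ℤ} (h : ix k x = ix k x') :
    mar g n k x = mar g n k x' := by
  unfold mar
  refine sum_congr rfl fun i hi => ?_
  have hi' := (mem_Ico.1 hi).1
  have e : ∀ j, k ≤ j → ix j x = ix j x' := by
    intro j hj
    have h1 : ∀ z : ℤ, ix j z = ix (j - k) (ix k z) := fun z => by
      rw [ix_ix, Nat.add_sub_cancel' hj]
    rw [h1, h1, h]
  have e2 : hs (i + 1) x = hs (i + 1) x' := by
    unfold PL.hs
    rw [Nat.add_sub_cancel, e i hi']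
  rw [e2, e (i + 1) (by omega)]

/-- one step of the orthogonality, weights constant on the cells -/
theorem mar_cell (g : ℕ → ℤ → ι → ℝ) {n k : ℕ} (hk : k < n) (T : ℤ) (r : ℤ → ℝ) :
    ∑ x ∈ iv n T, r (ix (k + 1) x) * nsq (mar g n k x) =
      ∑ x ∈ iv n T, r (ix (k + 1) x) * nsq (mar g n (k + 1) x) +
        ∑ x ∈ iv n T, r (ix (k + 1) x) * nsq (g (k + 1) (ix (k + 1) x)) := by
  rw [← iv_iv (Nat.succ_le_of_lt hk), ← iv_iv (Nat.succ_le_of_lt hk),
    ← iv_iv (Nat.succ_le_of_lt hk), ← sum_add_distrib]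
  refine sum_congr rfl fun q _ => ?_
  rw [← sum_add_distrib]
  have hx0 : ∀ x ∈ iv (k + 1) q, ix (k + 1) x = q := fun x hx => mem_iv.1 hx
  have hc : ∀ x ∈ iv (k + 1) q, mar g n (k + 1) x = mar g n (k + 1) (2 ^ (k + 1) * q) := by
    intro x hx
    refine mar_ix g n ?_
    rw [hx0 x hx]
    unfold ix
    rw [Int.mul_ediv_cancel_left _ (by positivity)]
  set c := mar g n (k + 1) (2 ^ (k + 1) * q) with hcdef
  have e1 : ∀ x ∈ iv (k + 1) q, r (ix (k + 1) x) * nsq (mar g n k x) =
      (r (ix (k + 1) x) * nsq (mar g n (k + 1) x) +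
        r (ix (k + 1) x) * nsq (g (k + 1) (ix (k + 1) x))) +
        2 * r q * (c ⬝ᵥ g (k + 1) q) * hs (k + 1) x := by
    intro x hx
    rw [mar_step g hk, hc x hx, hx0 x hx]
    unfold H43.nsq
    rw [add_dotProduct, dotProduct_add, dotProduct_add, smul_dotProduct, dotProduct_smul,
      smul_dotProduct, dotProduct_smul, smul_eq_mul, smul_eq_mul, smul_eq_mul, smul_eq_mul,
      dotProduct_comm (g (k + 1) q) c, ← mul_assoc (hs (k + 1) x) (hs (k + 1) x),
      PL.hs_mul_self]
    ring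
  rw [sum_congr rfl e1, sum_add_distrib, ← mul_sum, hs_cell, mul_zero, add_zero]

/-- **The squares at the affected cells of small count.** -/
theorem mar_stop (g : ℕ → ℤ → ι → ℝ) (n : ℕ) (T : ℤ) (a : ℕ → ℤ → Prop) (lam : ℕ) :
    ∑ k ∈ range n, ∑ x ∈ iv n T, (if a k (ix k x) ∧ cnt a n k (ix k x) ≤ lam then
      nsq (mar g n k x) else 0) ≤
      lam * ∑ i ∈ range n, ∑ x ∈ iv n T, nsq (g (i + 1) (ix (i + 1) x)) := by
  have key : ∀ d k : ℕ, k + d = n →
      ∑ j ∈ Ico k n, ∑ x ∈ iv n T, (if a j (ix j x) ∧ cnt a n j (ix j x) ≤ lam then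
        nsq (mar g n j x) else 0) +
      ∑ x ∈ iv n T, ((lam - cnt a n k (ix k x) : ℕ) : ℝ) * nsq (mar g n k x) ≤
      lam * ∑ i ∈ Ico k n, ∑ x ∈ iv n T, nsq (g (i + 1) (ix (i + 1) x)) := by
    intro d
    induction d with
    | zero =>
      intro k hk
      rw [add_zero] at hk
      subst hk
      unfold mar
      simp [H841.nsq_zero]
    | succ d ih =>
      intro k hk
      have hkn : k < n := by omega
      have h := ih (k + 1) (by omega)
      rw [sum_eq_sum_Ico_succ_bot hkn, sum_eq_sum_Ico_succ_bot hkn]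
      have e1 : ∑ x ∈ iv n T, (if a k (ix k x) ∧ cnt a n k (ix k x) ≤ lam then
          nsq (mar g n k x) else 0) +
          ∑ x ∈ iv n T, ((lam - cnt a n k (ix k x) : ℕ) : ℝ) * nsq (mar g n k x) =
          ∑ x ∈ iv n T, ((lam - cnt a n (k + 1) (ix (k + 1) x) : ℕ) : ℝ) *
            nsq (mar g n k x) := by
        rw [← sum_add_distrib]
        refine sum_congr rfl fun x _ => ?_
        have hs := cnt_step a hkn x
        by_cases ha : a k (ix k x)
        · rw [if_pos ha] at hs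
          by_cases hl : cnt a n k (ix k x) ≤ lam
          · rw [if_pos ⟨ha, hl⟩]
            have e : lam - cnt a n (k + 1) (ix (k + 1) x) = (lam - cnt a n k (ix k x)) + 1 := by
              omega
            rw [e]
            push_cast
            ring
          · rw [if_neg fun h => hl h.2]
            have e : lam - cnt a n (k + 1) (ix (k + 1) x) = lam - cnt a n k (ix k x) := by
              omega
            rw [e, zero_add]
        · rw [if_neg ha, zero_add] at hs
          rw [if_neg fun h => ha h.1, hs, zero_add]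
      have e2 := mar_cell g hkn T fun q => ((lam - cnt a n (k + 1) q : ℕ) : ℝ)
      have e3 : ∑ x ∈ iv n T, ((lam - cnt a n (k + 1) (ix (k + 1) x) : ℕ) : ℝ) *
          nsq (g (k + 1) (ix (k + 1) x)) ≤
          lam * ∑ x ∈ iv n T, nsq (g (k + 1) (ix (k + 1) x)) := by
        rw [mul_sum]
        refine sum_le_sum fun x _ => mul_le_mul_of_nonneg_right ?_ (nsq_nonneg _)
        exact_mod_cast Nat.sub_le _ _
      rw [mul_add]
      linarith
  have h := key n 0 (by omega)
  rw [range_eq_Ico]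
  have h2 : 0 ≤ ∑ x ∈ iv n T, ((lam - cnt a n 0 (ix 0 x) : ℕ) : ℝ) * nsq (mar g n 0 x) :=
    sum_nonneg fun x _ => mul_nonneg (Nat.cast_nonneg _) (nsq_nonneg _)
  linarith

variable {Mx : ℕ → ℤ → Matrix ι ι ℝ} {o x1 T M3 : ℤ} {s : ℕ → ℤ → ℤ → ℝ} {n : ℕ} {e : ℝ}

/-- **The slot at the affected cells of small count**, weights `W`. -/
theorem stop_num (hs1 : ∀ k a b, |s k a b| ≤ 1) (ho : o = 1 ∨ o = -1) (W : ℕ → ℤ → ℝ)
    (hW0 : ∀ k x, 0 ≤ W k x) (hW : ∀ k ≤ n, ∀ j, ∑ x ∈ iv k j, W k x ≤ e * 2 ^ k)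
    (a : ℕ → ℤ → Prop) (y : ℤ) (w : ι → ℝ) (hy : M3 = ix n y) (lam : ℕ) :
    ∑ k ∈ range n, ∑ x0 ∈ iv n T, (if a k (ix k x0) ∧ cnt a n k (ix k x0) ≤ lam then
      W k x0 * nsq (Rm Mx o x1 s n k x0 y *ᵥ w) else 0) ≤
      lam * (e * ∑ i ∈ range n, En Mx n T x1 M3 (i + 1) w) := by
  have he : 0 ≤ e := by
    have h := hW 0 (Nat.zero_le n) 0
    have h2 := (sum_nonneg fun x _ => hW0 0 x).trans h
    simpa using h2
  set g : ℕ → ℤ → ι → ℝ := fun i q =>
    (hs i y * s i q (ix i y)) • (Mx i (o - 2 - ix i x1 - ix i y - q) *ᵥ w) with hg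
  have e1 : ∀ k x0, Rm Mx o x1 s n k x0 y *ᵥ w = mar g n k x0 := by
    intro k x0
    rw [Rm_vec]
    unfold mar
    refine sum_congr rfl fun i _ => ?_
    rw [hg]
    unfold H841.gl
    simp only [smul_smul]
    congr 1
    ring
  -- the weights
  have e2 : ∀ k ∈ range n, ∑ x0 ∈ iv n T, (if a k (ix k x0) ∧ cnt a n k (ix k x0) ≤ lam then
      W k x0 * nsq (Rm Mx o x1 s n k x0 y *ᵥ w) else 0) ≤
      e * ∑ x0 ∈ iv n T, (if a k (ix k x0) ∧ cnt a n k (ix k x0) ≤ lam then
        nsq (mar g n k x0) else 0) := by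
    intro k hk
    have hkn : k ≤ n := (mem_range.1 hk).le
    rw [← iv_iv hkn, ← iv_iv hkn, mul_sum]
    refine sum_le_sum fun q _ => ?_
    by_cases hc : a k q ∧ cnt a n k q ≤ lam
    · have c1 : ∀ x0 ∈ iv k q, (if a k (ix k x0) ∧ cnt a n k (ix k x0) ≤ lam then
          W k x0 * nsq (Rm Mx o x1 s n k x0 y *ᵥ w) else 0) =
          W k x0 * nsq (mar g n k (2 ^ k * q)) := by
        intro x0 hx
        rw [mem_iv.1 hx, if_pos hc, e1]
        rw [mar_ix g n (x := x0) (x' := 2 ^ k * q)]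
        rw [mem_iv.1 hx]
        unfold ix
        rw [Int.mul_ediv_cancel_left _ (by positivity)]
      have c2 : ∀ x0 ∈ iv k q, (if a k (ix k x0) ∧ cnt a n k (ix k x0) ≤ lam then
          nsq (mar g n k x0) else 0) = nsq (mar g n k (2 ^ k * q)) := by
        intro x0 hx
        rw [mem_iv.1 hx, if_pos hc]
        rw [mar_ix g n (x := x0) (x' := 2 ^ k * q)]
        rw [mem_iv.1 hx]
        unfold ix
        rw [Int.mul_ediv_cancel_left _ (by positivity)]
      rw [sum_congr rfl c1, sum_congr rfl c2, ← sum_mul, sum_const, card_iv, nsmul_eq_mul]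
      push_cast
      rw [← mul_assoc]
      exact mul_le_mul_of_nonneg_right (hW k hkn q) (nsq_nonneg _)
    · rw [sum_eq_zero fun x0 hx => ?_, sum_eq_zero fun x0 hx => ?_, mul_zero]
      · rw [mem_iv.1 hx, if_neg hc]
      · rw [mem_iv.1 hx, if_neg hc]
  refine (sum_le_sum e2).trans ?_
  rw [← mul_sum]
  have h1 := mul_le_mul_of_nonneg_left (mar_stop g n T a lam) he
  refine h1.trans ?_
  have h2 : ∑ i ∈ range n, ∑ x ∈ iv n T, nsq (g (i + 1) (ix (i + 1) x)) ≤
      ∑ i ∈ range n, En Mx n T x1 M3 (i + 1) w := by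
    refine sum_le_sum fun i hi => ?_
    have hin : i + 1 ≤ n := Nat.succ_le_of_lt (mem_range.1 hi)
    have h3 := wt_Nn (Mx := Mx) (x1 := x1) (T := T) (M3 := M3) (n := n) ho (W := fun _ => 1)
      (e := 1) (k := i + 1) (fun _ => zero_le_one) (fun j => by
        rw [sum_const, card_iv, nsmul_eq_mul]
        push_cast
        linarith) hin (p := y) (by omega) (by omega) w
    rw [Nat.sub_self, pow_zero, mul_one, one_mul] at h3
    refine le_trans (sum_le_sum fun x _ => ?_) h3
    rw [one_mul, hg]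
    unfold H841.Nn H922.ck
    simp only
    rw [H841.nsq_smul, mul_pow, sq (hs (i + 1) y), PL.hs_mul_self, one_mul]
    have h4 : s (i + 1) (ix (i + 1) x) (ix (i + 1) y) ^ 2 ≤ 1 := by
      rw [← sq_abs]
      exact pow_le_one₀ (abs_nonneg _) (hs1 _ _ _)
    calc _ ≤ 1 * _ := mul_le_mul_of_nonneg_right h4 (nsq_nonneg _)
      _ = _ := one_mul _
  have hlam : (0 : ℝ) ≤ lam := Nat.cast_nonneg _
  calc e * (lam * ∑ i ∈ range n, ∑ x ∈ iv n T, nsq (g (i + 1) (ix (i + 1) x)))
      ≤ e * (lam * ∑ i ∈ range n, En Mx n T x1 M3 (i + 1) w) :=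
        mul_le_mul_of_nonneg_left (mul_le_mul_of_nonneg_left h2 hlam) he
    _ = _ := by ring

end

end Vale.Agent.P141.H565.StopNum
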